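import Mathlib.Analysis.Calculus.BumpFunction.Basic
import Mathlib.Analysis.Calculus.BumpFunction.InnerProduct
import Mathlib.Analysis.Calculus.ContDiff.Operations
import Mathlib.Analysis.Distribution.SchwartzSpace.Basic
import Mathlib.MeasureTheory.Integral.Bochner.Set
import Mathlib.MeasureTheory.Measure.Lebesgue.Basic
import Mathlib.MeasureTheory.Function.LpSeminorm.Monotonicity

open MeasureTheory Filter Topology Set
open scoped ENNReal NNReal ContDiff

namespace Vale.Agent.P141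

/-- The truncated trilinear Hilbert transform with slopes `1, 2, 3`. -/
noncomputable def truncTHT (f₁ f₂ f₃ : ℝ → ℂ) (ε R x : ℝ) : ℂ :=
  ∫ t in {t : ℝ | ε < |t| ∧ |t| < R}, f₁ (x - t) * f₂ (x - 2 * t) * f₃ (x - 3 * t) / (t : ℂ)

/-- The principal value trilinear Hilbert transform: the limit of the truncations as
`ε → 0+` and `R → ∞`. -/
noncomputable def THT (f₁ f₂ f₃ : ℝ → ℂ) (x : ℝ) : ℂ :=
  limUnder ((𝓝[>] (0 : ℝ)) ×ˢ (atTop : Filter ℝ)) fun p => truncTHT f₁ f₂ f₃ p.1 p.2 x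

/-- A smooth cutoff for a finite union of short intervals near `-j`. -/
theorem exists_cutoff (A : Finset ℤ) (c h : ℝ) (hh : 0 < h) :
    ∃ f : SchwartzMap ℝ ℂ, ∃ g : ℝ → ℝ, (∀ x, f x = (g x : ℂ)) ∧ Continuous g ∧
      (∀ x, 0 ≤ g x ∧ g x ≤ 1) ∧
      (∀ u ∈ A, ∀ x, |x - (c + h * (u - 1))| ≤ 2 * h → g x = 1) ∧
      (∀ x, g x ≠ 0 → ∃ u ∈ A, |x - (c + h * (u - 1))| < 3 * h) := by
  classical
  let b : ℤ → ContDiffBump (0 : ℝ) := fun _ => ⟨2 * h, 3 * h, by positivity, by linarith⟩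
  let bu : ℤ → ℝ → ℝ := fun u x => b u (x - (c + h * (u - 1)))
  let g : ℝ → ℝ := fun x => 1 - ∏ u ∈ A, (1 - bu u x)
  have hb01 : ∀ u x, 0 ≤ 1 - bu u x ∧ 1 - bu u x ≤ 1 := fun u x =>
    ⟨sub_nonneg.2 (b u).le_one, sub_le_self _ (b u).nonneg⟩
  have hg0 : ∀ x, g x ≠ 0 → ∃ u ∈ A, |x - (c + h * (u - 1))| < 3 * h := by
    intro x hx
    by_contra hne
    push Not at hne
    apply hx
    simp only [g]
    rw [Finset.prod_eq_one, sub_self]
    intro u hu
    simp only [bu]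
    rw [(b u).zero_of_le_dist (by simpa [b, Real.dist_eq] using hne u hu), sub_zero]
  have hsmooth : ContDiff ℝ ∞ g :=
    contDiff_const.sub (contDiff_prod fun u _ => contDiff_const.sub
      ((b u).contDiff.comp (contDiff_id.sub contDiff_const)))
  have hsupp : HasCompactSupport g := by
    refine HasCompactSupport.intro (K := ⋃ u ∈ A, Metric.closedBall (c + h * (u - 1)) (3 * h))
      (A.finite_toSet.isCompact_biUnion fun u _ => isCompact_closedBall _ _) fun x hx => ?_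
    by_contra hne
    obtain ⟨u, hu, hlt⟩ := hg0 x hne
    exact hx (mem_biUnion hu (by rw [Metric.mem_closedBall, Real.dist_eq]; exact hlt.le))
  refine ⟨(hsupp.comp_left (g := Complex.ofReal) Complex.ofReal_zero).toSchwartzMap
    (Complex.ofRealCLM.contDiff.comp hsmooth), g, fun x => rfl, hsmooth.continuous,
    fun x => ⟨?_, ?_⟩, ?_, hg0⟩
  · exact sub_nonneg.2 (Finset.prod_le_one (fun u _ => (hb01 u x).1) fun u _ => (hb01 u x).2)
  · exact sub_le_self _ (Finset.prod_nonneg fun u _ => (hb01 u x).1)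
  · intro u hu x hx
    simp only [g]
    rw [Finset.prod_eq_zero hu, sub_zero]
    simp only [bu]
    rw [(b u).one_of_mem_closedBall (by simpa [b] using hx), sub_self]

theorem eLpNorm_cutoff_le {A : Finset ℤ} {c h : ℝ} (hh : 0 < h) {K : ℝ}
    (hK : (A.card : ℝ) ≤ K) {f : ℝ → ℂ} {g : ℝ → ℝ} (hfg : ∀ x, f x = (g x : ℂ))
    (h01 : ∀ x, 0 ≤ g x ∧ g x ≤ 1)
    (hg0 : ∀ x, g x ≠ 0 → ∃ u ∈ A, |x - (c + h * (u - 1))| < 3 * h) (p : ℝ≥0∞) :
    eLpNorm f p volume ≤ ENNReal.ofReal (6 * h * K) ^ (1 / p.toReal) := by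
  set U := ⋃ u ∈ A, Metric.ball (c + h * ((u : ℝ) - 1)) (3 * h) with hU
  have hmono : ∀ x, ‖f x‖ ≤ ‖U.indicator (fun _ => (1 : ℝ)) x‖ := by
    intro x
    rw [hfg, Complex.norm_real, Real.norm_eq_abs, abs_of_nonneg (h01 x).1]
    by_cases hx : x ∈ U
    · simpa [hx] using (h01 x).2
    · have : g x = 0 := by
        by_contra hne
        obtain ⟨u, hu, hlt⟩ := hg0 x hne
        exact hx (mem_biUnion hu (by rwa [Metric.mem_ball, Real.dist_eq]))
      simp [this]
  have hvol : volume U ≤ ENNReal.ofReal (6 * h * K) := by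
    calc volume U ≤ ∑ u ∈ A, volume (Metric.ball (c + h * ((u : ℝ) - 1)) (3 * h)) :=
          measure_biUnion_finset_le _ _
      _ = ENNReal.ofReal (6 * h * A.card) := by
          simp only [Real.volume_ball, Finset.sum_const, nsmul_eq_mul]
          rw [← ENNReal.ofReal_natCast A.card, ← ENNReal.ofReal_mul (Nat.cast_nonneg _)]
          congr 1
          ring
      _ ≤ ENNReal.ofReal (6 * h * K) := ENNReal.ofReal_le_ofReal (by gcongr)
  calc eLpNorm f p volume ≤ eLpNorm (U.indicator fun _ => (1 : ℝ)) p volume := eLpNorm_mono hmono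
    _ ≤ ‖(1 : ℝ)‖ₑ * volume U ^ (1 / p.toReal) := eLpNorm_indicator_const_le _ _
    _ ≤ ENNReal.ofReal (6 * h * K) ^ (1 / p.toReal) := by
        simp only [enorm_one, one_mul]
        exact ENNReal.rpow_le_rpow hvol (by positivity)

theorem pairwiseDisjoint_Ico (S : Finset ℤ) (c h : ℝ) (hh : 0 < h) :
    (S : Set ℤ).PairwiseDisjoint fun i : ℤ => Ico (c + h * i) (c + h * (i + 1)) := by
  intro i _ j _ hij
  rw [Function.onFun, Set.disjoint_left]
  rintro y ⟨h1, h2⟩ ⟨h3, h4⟩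
  rcases lt_or_gt_of_ne hij with hlt | hlt
  · have : (i : ℝ) + 1 ≤ j := by exact_mod_cast hlt
    nlinarith
  · have : (j : ℝ) + 1 ≤ i := by exact_mod_cast hlt
    nlinarith

theorem volume_grid (S : Finset ℤ) (c h : ℝ) (hh : 0 < h) :
    volume (⋃ i ∈ S, Ico (c + h * (i : ℝ)) (c + h * ((i : ℝ) + 1))) =
      ENNReal.ofReal (S.card * h) := by
  rw [measure_biUnion_finset (pairwiseDisjoint_Ico S c h hh) fun i _ => measurableSet_Ico]
  simp only [Real.volume_Ico, add_sub_add_left_eq_sub, mul_add, mul_one, add_sub_cancel_left,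
    Finset.sum_const, nsmul_eq_mul]
  rw [← ENNReal.ofReal_natCast, ← ENNReal.ofReal_mul (Nat.cast_nonneg _)]

/-- From a discrete configuration to Schwartz functions. -/
theorem exists_test_functions {q : ℕ} (hq : 0 < q) (Xs : Finset ℤ) (Ts : ℤ → Finset ℤ)
    (A : ℤ → Finset ℤ) {L : ℝ} {K : ℤ → ℝ} (hL : 0 ≤ L)
    (hX : ∀ x ∈ Xs, 0 ≤ x ∧ x < q ∧ L ≤ (Ts x).card ∧ ∀ t ∈ Ts x, 0 ≤ t ∧ t < q)
    (hA : ∀ x ∈ Xs, ∀ t ∈ Ts x, ∀ j ∈ ({1, 2, 3} : Finset ℤ), x - j * t ∈ A j)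
    (hK : ∀ j ∈ ({1, 2, 3} : Finset ℤ), ((A j).card : ℝ) ≤ K j ∧
      A j ⊆ Finset.Icc (-3 * (q : ℤ)) q)
    {r : ℝ} (hr : 0 < r) :
    ∃ f₁ f₂ f₃ : SchwartzMap ℝ ℂ,
      (∀ p : ℝ≥0∞, eLpNorm f₁ p volume ≤ ENNReal.ofReal (6 * (100 * q : ℝ)⁻¹ * K 1) ^ (1 / p.toReal)) ∧
      (∀ p : ℝ≥0∞, eLpNorm f₂ p volume ≤ ENNReal.ofReal (6 * (100 * q : ℝ)⁻¹ * K 2) ^ (1 / p.toReal)) ∧
      (∀ p : ℝ≥0∞, eLpNorm f₃ p volume ≤ ENNReal.ofReal (6 * (100 * q : ℝ)⁻¹ * K 3) ^ (1 / p.toReal)) ∧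
      (ENNReal.ofReal ((L * (100 * q : ℝ)⁻¹ / 2) ^ r * (Xs.card * (100 * q : ℝ)⁻¹))) ^ (1 / r) ≤
        eLpNorm (THT f₁ f₂ f₃) (ENNReal.ofReal r) volume := by
  set h : ℝ := (100 * q : ℝ)⁻¹ with hh
  have hqR : (1 : ℝ) ≤ q := by exact_mod_cast hq
  have hh0 : 0 < h := by positivity
  have hqh : (q : ℝ) * h = 1 / 100 := by rw [hh]; field_simp
  have hh1 : h ≤ 1 / 100 := by nlinarith
  obtain ⟨f₁, g₁, hf₁, hc₁, h01₁, hone₁, hz₁⟩ := exists_cutoff (A 1) (-1) h hh0
  obtain ⟨f₂, g₂, hf₂, hc₂, h01₂, hone₂, hz₂⟩ := exists_cutoff (A 2) (-2) h hh0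
  obtain ⟨f₃, g₃, hf₃, hc₃, h01₃, hone₃, hz₃⟩ := exists_cutoff (A 3) (-3) h hh0
  refine ⟨f₁, f₂, f₃, eLpNorm_cutoff_le hh0 (hK 1 (by simp)).1 hf₁ h01₁ hz₁,
    eLpNorm_cutoff_le hh0 (hK 2 (by simp)).1 hf₂ h01₂ hz₂,
    eLpNorm_cutoff_le hh0 (hK 3 (by simp)).1 hf₃ h01₃ hz₃, ?_⟩
  set E := ⋃ i ∈ Xs, Ico ((0 : ℝ) + h * (i : ℝ)) (0 + h * ((i : ℝ) + 1)) with hE
  have key : ∀ x ∈ E, L * h / 2 ≤ ‖THT f₁ f₂ f₃ x‖ := by
    intro x hx
    simp only [hE, mem_iUnion, zero_add] at hx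
    obtain ⟨i, hi, hxi⟩ := hx
    obtain ⟨hi0, hiq, hiL, hit⟩ := hX i hi
    have hi0' : (0 : ℝ) ≤ i := by exact_mod_cast hi0
    have hiq' : (i : ℝ) + 1 ≤ q := by exact_mod_cast hiq
    have hx0 : 0 ≤ x := le_trans (by positivity) hxi.1
    have hx1 : x ≤ 1 / 100 := by
      have := mul_le_mul_of_nonneg_left hiq' hh0.le
      linarith [hxi.2]
    set F : ℝ → ℝ := fun t => g₁ (x - t) * g₂ (x - 2 * t) * g₃ (x - 3 * t) with hF
    set J : Set ℝ := Icc (4 / 5) (6 / 5) with hJ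
    have hzero : ∀ t, t ∉ J → F t = 0 := by
      intro t ht
      by_contra hne
      have h1 : g₁ (x - t) ≠ 0 := fun h0 => hne (by simp [hF, h0])
      obtain ⟨u, hu, hlt⟩ := hz₁ _ h1
      have hu' := Finset.mem_Icc.1 ((hK 1 (by simp)).2 hu)
      have hu1 : -3 * (q : ℝ) ≤ u := by exact_mod_cast hu'.1
      have hu2 : (u : ℝ) ≤ q := by exact_mod_cast hu'.2
      have := mul_le_mul_of_nonneg_left hu1 hh0.le
      have := mul_le_mul_of_nonneg_left hu2 hh0.le
      rw [abs_lt] at hlt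
      exact ht ⟨by nlinarith, by nlinarith⟩
    have hint : ∀ ε R : ℝ, ε < 1 / 2 → 2 < R →
        truncTHT f₁ f₂ f₃ ε R x = ((∫ t in J, F t / t : ℝ) : ℂ) := by
      intro ε R hε hR
      unfold truncTHT
      rw [← integral_complex_ofReal]
      have heq : ∀ t, f₁ (x - t) * f₂ (x - 2 * t) * f₃ (x - 3 * t) / (t : ℂ) =
          ((F t / t : ℝ) : ℂ) := fun t => by simp [hf₁, hf₂, hf₃, hF]
      simp only [heq]
      have hsub : J ⊆ {t : ℝ | ε < |t| ∧ |t| < R} := fun t ht => by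
        simp only [hJ, mem_Icc] at ht
        rw [Set.mem_ofPred_eq, abs_of_pos (by linarith : (0 : ℝ) < t)]
        constructor <;> linarith
      refine setIntegral_eq_of_subset_of_forall_sdiff_eq_zero ?_ hsub fun t ht => ?_
      · exact (measurableSet_lt measurable_const measurable_norm).inter
          (measurableSet_lt measurable_norm measurable_const)
      · simp [hzero t ht.2]
    have hT : THT f₁ f₂ f₃ x = ((∫ t in J, F t / t : ℝ) : ℂ) := by
      refine Tendsto.limUnder_eq (tendsto_const_nhds.congr' ?_)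
      have hev : {p : ℝ × ℝ | p.1 < 1 / 2 ∧ 2 < p.2} ∈
          (𝓝[>] (0 : ℝ)) ×ˢ (atTop : Filter ℝ) :=
        mem_of_superset (prod_mem_prod (nhdsWithin_le_nhds (Iio_mem_nhds (by norm_num)))
          (Ioi_mem_atTop 2)) fun p hp => hp
      filter_upwards [hev] with p hp
      exact (hint p.1 p.2 hp.1 hp.2).symm
    rw [hT, Complex.norm_real, Real.norm_eq_abs]
    refine le_trans ?_ (le_abs_self _)
    set G := ⋃ k ∈ Ts i, Ico ((1 : ℝ) + h * (k : ℝ)) (1 + h * ((k : ℝ) + 1)) with hG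
    have hcont : ContinuousOn (fun t => F t / t) J := by
      refine ContinuousOn.div ?_ continuousOn_id fun t ht => ?_
      · exact ((hc₁.comp (by fun_prop)).mul (hc₂.comp (by fun_prop))).mul
          (hc₃.comp (by fun_prop)) |>.continuousOn
      · simp only [hJ, mem_Icc] at ht
        exact ne_of_gt (show (0 : ℝ) < t by linarith)
    have hJint : IntegrableOn (fun t => F t / t) J := hcont.integrableOn_compact isCompact_Icc
    have hGJ : G ⊆ J := by
      intro t ht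
      simp only [hG, mem_iUnion] at ht
      obtain ⟨k, hk, htk⟩ := ht
      obtain ⟨hk0, hkq⟩ := hit k hk
      have hk0' : (0 : ℝ) ≤ k := by exact_mod_cast hk0
      have hkq' : (k : ℝ) + 1 ≤ q := by exact_mod_cast hkq
      have := mul_le_mul_of_nonneg_left hkq' hh0.le
      have := mul_nonneg hh0.le hk0'
      exact ⟨by linarith [htk.1], by linarith [htk.2]⟩
    have hGm : MeasurableSet G := Finset.measurableSet_biUnion _ fun k _ => measurableSet_Ico
    have hlow : ∀ t ∈ G, (1 : ℝ) / 2 ≤ F t / t := by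
      intro t ht
      have htJ := hGJ ht
      simp only [hG, mem_iUnion] at ht
      obtain ⟨k, hk, htk⟩ := ht
      have hmem := fun j hj => hA i hi k hk j hj
      have e1 : g₁ (x - t) = 1 := by
        refine hone₁ _ (hmem 1 (by simp)) _ ?_
        rw [abs_le]
        push_cast
        constructor <;> nlinarith [htk.1, htk.2, hxi.1, hxi.2]
      have e2 : g₂ (x - 2 * t) = 1 := by
        refine hone₂ _ (hmem 2 (by simp)) _ ?_
        rw [abs_le]
        push_cast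
        constructor <;> nlinarith [htk.1, htk.2, hxi.1, hxi.2]
      have e3 : g₃ (x - 3 * t) = 1 := by
        refine hone₃ _ (hmem 3 (by simp)) _ ?_
        rw [abs_le]
        push_cast
        constructor <;> nlinarith [htk.1, htk.2, hxi.1, hxi.2]
      simp only [hJ, mem_Icc] at htJ
      rw [hF]
      simp only [e1, e2, e3, mul_one]
      rw [div_le_div_iff₀ (by norm_num) (by linarith)]
      linarith
    have hvolG : volume.real G = (Ts i).card * h := by
      rw [measureReal_def, hG, volume_grid _ _ _ hh0, ENNReal.toReal_ofReal (by positivity)]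
    calc L * h / 2 ≤ 1 / 2 * volume.real G := by rw [hvolG]; nlinarith
      _ ≤ ∫ t in G, F t / t := setIntegral_ge_of_const_le_real hGm
          (by rw [hG, volume_grid _ _ _ hh0]; exact ENNReal.ofReal_ne_top) hlow
          (hJint.mono_set hGJ)
      _ ≤ ∫ t in J, F t / t := by
          refine setIntegral_mono_set hJint ?_ (Eventually.of_forall hGJ)
          refine (ae_restrict_iff' measurableSet_Icc).2 (Eventually.of_forall fun t ht => ?_)
          exact div_nonneg (mul_nonneg (mul_nonneg (h01₁ _).1 (h01₂ _).1) (h01₃ _).1)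
            (le_trans (by norm_num) ht.1)
  have hr0 : ENNReal.ofReal r ≠ 0 := by simp [hr]
  rw [eLpNorm_eq_eLpNorm' hr0 ENNReal.ofReal_ne_top, ENNReal.toReal_ofReal hr.le, eLpNorm']
  refine ENNReal.rpow_le_rpow ?_ (by positivity)
  calc ENNReal.ofReal ((L * h / 2) ^ r * (Xs.card * h))
      = ENNReal.ofReal ((L * h / 2) ^ r) * volume E := by
        rw [hE, volume_grid _ _ _ hh0, ENNReal.ofReal_mul (by positivity)]
    _ = ∫⁻ _x in E, ENNReal.ofReal ((L * h / 2) ^ r) := (setLIntegral_const _ _).symm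
    _ ≤ ∫⁻ x in E, ‖THT f₁ f₂ f₃ x‖ₑ ^ r := by
        refine setLIntegral_mono' (Finset.measurableSet_biUnion _ fun k _ => measurableSet_Ico)
          fun x hx => ?_
        rw [← ENNReal.ofReal_rpow_of_nonneg (by positivity) hr.le, ← ofReal_norm]
        exact ENNReal.rpow_le_rpow (ENNReal.ofReal_le_ofReal (key x hx)) hr.le
    _ ≤ ∫⁻ x, ‖THT f₁ f₂ f₃ x‖ₑ ^ r := setLIntegral_le_lintegral _ _

end Vale.Agent.P141
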