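import Mathlib.GroupTheory.Perm.DomMulAct
import Mathlib.Analysis.SpecialFunctions.Stirling
import Mathlib.Analysis.Real.Pi.Bounds
import Mathlib.Data.Fintype.Perm

open Finset
open scoped Nat

namespace Vale.Agent.P141

variable {α β γ : Type*} [Fintype α] [DecidableEq α] [DecidableEq β] [DecidableEq γ]

/-- All rearrangements of the coordinates of a word. -/
def arrangements (g : α → β) : Finset (α → β) :=
  univ.image fun σ : Equiv.Perm α => g ∘ σ

theorem mem_arrangements {g v : α → β} :
    v ∈ arrangements g ↔ ∃ σ : Equiv.Perm α, g ∘ σ = v := by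
  simp [arrangements]

theorem arrangements_comp {g : α → β} {v : α → β} (hv : v ∈ arrangements g) (τ : Equiv.Perm α) :
    v ∘ τ ∈ arrangements g := by
  obtain ⟨σ, rfl⟩ := mem_arrangements.1 hv
  exact mem_arrangements.2 ⟨σ * τ, rfl⟩

theorem image_arrangements (g : α → β) (f : β → γ) :
    (arrangements g).image (fun v => f ∘ v) = arrangements (f ∘ g) := by
  simp [arrangements, Finset.image_image, Function.comp_def]

theorem card_arrangements_mul (g : α → β) :
    (arrangements g).card * ∏ b ∈ univ.image g, (univ.filter (g · = b)).card ! =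
      (Fintype.card α)! := by
  have hstab : (univ.filter fun σ : Equiv.Perm α => g ∘ σ = g).card =
      ∏ b ∈ univ.image g, (univ.filter (g · = b)).card ! := by
    rw [← Fintype.card_subtype, DomMulAct.stabilizer_card']
    refine Finset.prod_congr rfl fun b _ => ?_
    rw [Fintype.card_subtype]
  rw [← hstab, ← Fintype.card_perm, ← Finset.card_univ (α := Equiv.Perm α),
    Finset.card_eq_sum_card_image (fun σ : Equiv.Perm α => g ∘ σ) univ,
    Finset.sum_const_nat (m := (univ.filter fun σ : Equiv.Perm α => g ∘ σ = g).card)]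
  · rfl
  intro v hv
  obtain ⟨τ, -, rfl⟩ := Finset.mem_image.1 hv
  refine Finset.card_bij' (fun σ _ => σ * τ⁻¹) (fun σ _ => σ * τ) ?_ ?_ ?_ ?_
  · intro σ hσ
    simp only [mem_filter, mem_univ, true_and] at hσ ⊢
    funext a
    simpa [Equiv.Perm.mul_apply] using congrFun hσ (τ⁻¹ a)
  · intro σ hσ
    simp only [mem_filter, mem_univ, true_and] at hσ ⊢
    funext a
    simpa [Equiv.Perm.mul_apply] using congrFun hσ (τ a)
  · intro σ _
    simp
  · intro σ _
    simp

/-- All fibres of a coordinatewise map between arrangement classes have the same size. -/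
theorem card_fiber_mul (g : α → β) (f : β → γ) {y : α → γ} (hy : y ∈ arrangements (f ∘ g)) :
    ((arrangements g).filter fun v => f ∘ v = y).card * (arrangements (f ∘ g)).card =
      (arrangements g).card := by
  have hconst : ∀ z ∈ arrangements (f ∘ g),
      ((arrangements g).filter fun v => f ∘ v = z).card =
        ((arrangements g).filter fun v => f ∘ v = f ∘ g).card := by
    intro z hz
    obtain ⟨τ, rfl⟩ := mem_arrangements.1 hz
    refine Finset.card_bij' (fun v _ => v ∘ (τ⁻¹ : Equiv.Perm α)) (fun v _ => v ∘ τ) ?_ ?_ ?_ ?_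
    · intro v hv
      simp only [mem_filter] at hv ⊢
      refine ⟨arrangements_comp hv.1 _, ?_⟩
      funext a
      simpa using congrFun hv.2 (τ⁻¹ a)
    · intro v hv
      simp only [mem_filter] at hv ⊢
      refine ⟨arrangements_comp hv.1 _, ?_⟩
      funext a
      simpa using congrFun hv.2 (τ a)
    · intro v _
      funext a
      simp
    · intro v _
      funext a
      simp
  rw [mul_comm, ← image_arrangements g f, Finset.card_eq_sum_card_image (fun v => f ∘ v) (arrangements g),
    hconst y hy, Finset.sum_const_nat]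
  intro z hz
  exact hconst z (image_arrangements g f ▸ hz)

/-- The product `∏ c ^ c` over the letter counts `c` of a word. -/
def selfPow (g : α → β) : ℕ :=
  ∏ b ∈ univ.image g, (univ.filter (g · = b)).card ^ (univ.filter (g · = b)).card

theorem selfPow_pos (g : α → β) : 0 < selfPow g := Finset.prod_pos fun _ _ => Nat.pow_self_pos

theorem factorial_upper {n : ℕ} (hn : n ≠ 0) :
    (n ! : ℝ) ≤ Real.exp 1 * n * ((n : ℝ) / Real.exp 1) ^ n := by
  obtain ⟨k, rfl⟩ := Nat.exists_eq_succ_of_ne_zero hn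
  have h := Stirling.stirlingSeq'_antitone (Nat.zero_le k)
  simp only [Function.comp, Stirling.stirlingSeq_one] at h
  rw [Stirling.stirlingSeq, div_le_iff₀ (by positivity)] at h
  refine h.trans ?_
  rw [← mul_assoc]
  refine mul_le_mul_of_nonneg_right ?_ (by positivity)
  set x : ℝ := ((k.succ : ℕ) : ℝ)
  have hx : (1 : ℝ) ≤ x := by simp [x]
  rw [Real.sqrt_mul (by norm_num : (0 : ℝ) ≤ 2), ← mul_assoc,
    div_mul_cancel₀ _ (by positivity)]
  exact mul_le_mul_of_nonneg_left (Real.sqrt_le_left (by linarith) |>.2 (by nlinarith))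
    (Real.exp_nonneg _)

theorem factorial_lower (n : ℕ) : ((n : ℝ) / Real.exp 1) ^ n ≤ (n ! : ℝ) := by
  rcases Nat.eq_zero_or_pos n with rfl | hn
  · simp
  refine le_trans (le_mul_of_one_le_left (by positivity) ?_) (Stirling.le_factorial_stirling n)
  rw [Real.one_le_sqrt]
  have : (1 : ℝ) ≤ n := by exact_mod_cast hn
  nlinarith [Real.pi_gt_d2]

variable {N : ℕ} (m : ℕ) (g₀ : Fin N → β)

theorem filter_rep (b : β) :
    (univ.filter fun p : Fin m × Fin N => g₀ p.2 = b).card =
      m * (univ.filter (g₀ · = b)).card := by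
  rw [show (univ.filter fun p : Fin m × Fin N => g₀ p.2 = b) =
    (univ : Finset (Fin m)) ×ˢ univ.filter (g₀ · = b) by ext p; simp, card_product, card_univ,
    Fintype.card_fin]

theorem image_rep (hm : m ≠ 0) : univ.image (fun p : Fin m × Fin N => g₀ p.2) = univ.image g₀ := by
  ext b
  simp only [mem_image, mem_univ, true_and, Prod.exists]
  exact ⟨fun ⟨_, a, h⟩ => ⟨a, h⟩, fun ⟨a, h⟩ => ⟨⟨0, Nat.pos_of_ne_zero hm⟩, a, h⟩⟩

theorem prod_scaled (hm : m ≠ 0) :
    ∏ b ∈ univ.image g₀, (((m * (univ.filter (g₀ · = b)).card : ℕ) : ℝ) / Real.exp 1) ^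
        (m * (univ.filter (g₀ · = b)).card) =
      ((m : ℝ) / Real.exp 1) ^ (m * N) * (selfPow g₀ : ℝ) ^ m := by
  have hN : ∑ b ∈ univ.image g₀, (univ.filter (g₀ · = b)).card = N := by
    rw [← card_eq_sum_card_image, card_univ, Fintype.card_fin]
  have hpow : ((m : ℝ) / Real.exp 1) ^ (m * N) =
      ∏ b ∈ univ.image g₀, ((m : ℝ) / Real.exp 1) ^ (m * (univ.filter (g₀ · = b)).card) := by
    rw [Finset.prod_pow_eq_pow_sum, ← Finset.mul_sum, hN]
  rw [hpow, selfPow, Nat.cast_prod, ← Finset.prod_pow, ← Finset.prod_mul_distrib]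
  refine Finset.prod_congr rfl fun b _ => ?_
  rw [Nat.cast_mul, Nat.cast_pow, ← pow_mul, mul_comm _ m, ← mul_pow]
  congr 1
  ring

theorem arrangements_rep_bounds (hm : m ≠ 0) (hN : N ≠ 0) :
    ((arrangements fun p : Fin m × Fin N => g₀ p.2).card : ℝ) ≤
        Real.exp 1 * (m * N) * ((N : ℝ) ^ N / selfPow g₀) ^ m ∧
      ((N : ℝ) ^ N / selfPow g₀) ^ m / (Real.exp 1 * (m * N)) ^ N ≤
        ((arrangements fun p : Fin m × Fin N => g₀ p.2).card : ℝ) := by
  set g : Fin m × Fin N → β := fun p => g₀ p.2 with hg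
  have key := card_arrangements_mul g
  simp only [hg, image_rep m g₀ hm, filter_rep, Fintype.card_prod, Fintype.card_fin] at key
  set c : β → ℕ := fun b => (univ.filter (g₀ · = b)).card with hc
  have keyR : ((arrangements g).card : ℝ) * ∏ b ∈ univ.image g₀, ((m * c b)! : ℝ) =
      ((m * N)! : ℝ) := by
    rw [← key]; push_cast; rfl
  set e := Real.exp 1 with he
  have he1 : 1 ≤ e := Real.one_le_exp (by norm_num)
  set P := ((m : ℝ) / e) ^ (m * N) with hP
  have hPpos : 0 < P := by
    have : (0 : ℝ) < m := by exact_mod_cast Nat.pos_of_ne_zero hm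
    positivity
  have hG : (0 : ℝ) < selfPow g₀ := by exact_mod_cast selfPow_pos g₀
  have htop : ((((m * N : ℕ)) : ℝ) / e) ^ (m * N) = P * ((N : ℝ) ^ N) ^ m := by
    rw [hP, ← pow_mul, mul_comm N m, ← mul_pow]
    congr 1
    push_cast
    ring
  have hlowb : P * (selfPow g₀ : ℝ) ^ m ≤ ∏ b ∈ univ.image g₀, ((m * c b)! : ℝ) := by
    rw [hP, ← prod_scaled m g₀ hm]
    exact Finset.prod_le_prod (fun b _ => by positivity) fun b _ => factorial_lower _
  have hmn : (1 : ℝ) ≤ e * (m * N) := by
    have h1 : (1 : ℝ) ≤ m := by exact_mod_cast Nat.pos_of_ne_zero hm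
    have h2 : (1 : ℝ) ≤ N := by exact_mod_cast Nat.pos_of_ne_zero hN
    nlinarith [mul_le_mul h1 h2 zero_le_one (by linarith : (0 : ℝ) ≤ m)]
  have hupb : ∏ b ∈ univ.image g₀, ((m * c b)! : ℝ) ≤
      (e * (m * N)) ^ N * (P * (selfPow g₀ : ℝ) ^ m) := by
    rw [hP, ← prod_scaled m g₀ hm]
    refine (Finset.prod_le_prod (fun b _ => by positivity) (g := fun b =>
      (e * (m * N)) * ((((m * c b : ℕ)) : ℝ) / e) ^ (m * c b)) fun b _ => ?_).trans ?_
    · rcases Nat.eq_zero_or_pos (m * c b) with h0 | h0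
      · simp [h0, hmn]
      refine (factorial_upper h0.ne').trans (mul_le_mul_of_nonneg_right ?_ (by positivity))
      have : c b ≤ N := (Finset.card_le_univ _).trans_eq (Fintype.card_fin N)
      have : (c b : ℝ) ≤ N := by exact_mod_cast this
      push_cast
      gcongr
    · rw [Finset.prod_mul_distrib, Finset.prod_const]
      refine mul_le_mul_of_nonneg_right (pow_le_pow_right₀ hmn ?_) (Finset.prod_nonneg
        fun b _ => by positivity)
      exact Finset.card_image_le.trans_eq (by simp)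
  have hA : (0 : ℝ) ≤ ((arrangements g).card : ℝ) := Nat.cast_nonneg _
  have hQpos : 0 < (selfPow g₀ : ℝ) ^ m := by positivity
  constructor
  · rw [div_pow, mul_div_assoc', le_div_iff₀ hQpos]
    refine le_of_mul_le_mul_left ?_ hPpos
    calc P * (((arrangements g).card : ℝ) * (selfPow g₀ : ℝ) ^ m)
        = ((arrangements g).card : ℝ) * (P * (selfPow g₀ : ℝ) ^ m) := by ring
      _ ≤ ((arrangements g).card : ℝ) * ∏ b ∈ univ.image g₀, ((m * c b)! : ℝ) := by gcongr
      _ = ((m * N)! : ℝ) := keyR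
      _ ≤ e * ((m * N : ℕ) : ℝ) * ((((m * N : ℕ)) : ℝ) / e) ^ (m * N) :=
          factorial_upper (Nat.mul_ne_zero hm hN)
      _ = P * (e * (m * N) * ((N : ℝ) ^ N) ^ m) := by rw [htop]; push_cast; ring
  · have hEpos : 0 < (e * ((m : ℝ) * N)) ^ N := by positivity
    rw [div_pow, div_div, div_le_iff₀ (mul_pos hQpos hEpos)]
    refine le_of_mul_le_mul_left ?_ hPpos
    calc P * ((N : ℝ) ^ N) ^ m = ((((m * N : ℕ)) : ℝ) / e) ^ (m * N) := htop.symm
      _ ≤ ((m * N)! : ℝ) := factorial_lower _
      _ = ((arrangements g).card : ℝ) * ∏ b ∈ univ.image g₀, ((m * c b)! : ℝ) := keyR.symm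
      _ ≤ ((arrangements g).card : ℝ) * ((e * (m * N)) ^ N * (P * (selfPow g₀ : ℝ) ^ m)) := by
          gcongr
      _ = P * (((arrangements g).card : ℝ) * ((selfPow g₀ : ℝ) ^ m * (e * (m * N)) ^ N)) := by ring

end Vale.Agent.P141
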