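import Vale.Agent.P141.Analysis
import Mathlib.Data.Finset.Prod
import Mathlib.Data.Int.Interval

/-!
# Digit configurations for the trilinear Hilbert transform

A finite set `D` of digit pairs `(a, b)` on which `2 * a - b` is injective modulo `M`
generates configurations `(x, t) = (2 * A - B, A - B)` of every depth.
-/

open MeasureTheory Filter Topology
open scoped ENNReal NNReal

namespace Vale.Agent.P141

/-- The pairs of integers with all digit pairs in `D`, of depth `K`, in base `M`. -/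
def digitPairs (M : ℤ) (D : Finset (ℤ × ℤ)) : ℕ → Finset (ℤ × ℤ)
  | 0 => {(0, 0)}
  | K + 1 => (digitPairs M D K ×ˢ D).image fun w =>
      (M * w.1.1 + w.2.1, M * w.1.2 + w.2.2)

theorem digitPairs_bound {M : ℤ} (hM : 2 ≤ M) {D : Finset (ℤ × ℤ)}
    (hD : ∀ d ∈ D, |d.1| ≤ M ∧ |d.2| ≤ M) (K : ℕ) :
    ∀ p ∈ digitPairs M D K, |p.1| ≤ 2 * (M ^ K - 1) ∧ |p.2| ≤ 2 * (M ^ K - 1) := by
  induction K with
  | zero => simp [digitPairs]
  | succ K ih =>
    intro p hp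
    simp only [digitPairs, Finset.mem_image, Finset.mem_product] at hp
    obtain ⟨⟨w, d⟩, ⟨hw, hd⟩, rfl⟩ := hp
    obtain ⟨h1, h2⟩ := ih w hw
    obtain ⟨h3, h4⟩ := hD d hd
    rw [abs_le] at h1 h2 h3 h4
    rw [abs_le, abs_le, pow_succ]
    refine ⟨⟨?_, ?_⟩, ⟨?_, ?_⟩⟩ <;> nlinarith

theorem card_image_digitPairs_le (M u v : ℤ) (D : Finset (ℤ × ℤ)) (K : ℕ) :
    ((digitPairs M D K).image fun p => u * p.1 + v * p.2).card ≤
      (D.image fun d => u * d.1 + v * d.2).card ^ K := by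
  induction K with
  | zero => simp [digitPairs]
  | succ K ih =>
    refine le_trans (Finset.card_le_card (t := ((((digitPairs M D K).image fun p =>
      u * p.1 + v * p.2) ×ˢ (D.image fun d => u * d.1 + v * d.2)).image
        fun w => M * w.1 + w.2)) ?_) ?_
    · intro z hz
      simp only [digitPairs, Finset.mem_image, Finset.mem_product] at hz ⊢
      obtain ⟨p, ⟨⟨w, d⟩, ⟨hw, hd⟩, rfl⟩, rfl⟩ := hz
      exact ⟨(u * w.1 + v * w.2, u * d.1 + v * d.2), ⟨⟨w, hw, rfl⟩, ⟨d, hd, rfl⟩⟩, by ring⟩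
    · refine Finset.card_image_le.trans ?_
      rw [Finset.card_product, pow_succ]
      exact Nat.mul_le_mul_right _ ih

theorem card_digitPairs_main {M : ℤ} (hM : M ≠ 0) {D : Finset (ℤ × ℤ)}
    (hinj : ∀ d ∈ D, ∀ e ∈ D, M ∣ (2 * d.1 - d.2) - (2 * e.1 - e.2) → d = e) (K : ℕ) :
    ((digitPairs M D K).image fun p => 2 * p.1 - p.2).card = D.card ^ K := by
  induction K with
  | zero => simp [digitPairs]
  | succ K ih =>
    have h : (digitPairs M D (K + 1)).image (fun p => 2 * p.1 - p.2) =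
        ((((digitPairs M D K).image fun p => 2 * p.1 - p.2) ×ˢ D).image
          fun w => M * w.1 + (2 * w.2.1 - w.2.2)) := by
      ext z
      simp only [digitPairs, Finset.mem_image, Finset.mem_product]
      constructor
      · rintro ⟨p, ⟨⟨w, d⟩, ⟨hw, hd⟩, rfl⟩, rfl⟩
        exact ⟨(2 * w.1 - w.2, d), ⟨⟨w, hw, rfl⟩, hd⟩, by ring⟩
      · rintro ⟨⟨s, d⟩, ⟨⟨w, hw, hs⟩, hd⟩, rfl⟩
        exact ⟨_, ⟨(w, d), ⟨hw, hd⟩, rfl⟩, by subst hs; ring⟩
    rw [h, Finset.card_image_of_injOn, Finset.card_product, ih, pow_succ]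
    rintro ⟨s, d⟩ h1 ⟨s', e⟩ h2 heq
    simp only [Finset.coe_product, Set.mem_prod, Finset.mem_coe] at h1 h2
    simp only at heq
    have hde : d = e := hinj d h1.2 e h2.2 ⟨s' - s, by linear_combination heq⟩
    subst hde
    have : M * s = M * s' := by linarith
    rw [mul_left_cancel₀ hM this]

/-- A configuration with one shift over each output point, turned into an inequality for any
constant that bounds the transform. -/
theorem config_bound {p₁ p₂ p₃ : ℝ≥0∞} {r : ℝ} (hr : 0 < r)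
    (hexp : 1 / p₁.toReal + 1 / p₂.toReal + 1 / p₃.toReal = 1 / r) {C : ℝ≥0}
    (hC : ∀ f₁ f₂ f₃ : SchwartzMap ℝ ℂ, eLpNorm (THT f₁ f₂ f₃) (ENNReal.ofReal r) volume ≤
      C * eLpNorm f₁ p₁ volume * eLpNorm f₂ p₂ volume * eLpNorm f₃ p₃ volume)
    {q : ℕ} (hq : 0 < q) (Xs : Finset ℤ) (tau : ℤ → ℤ) (A : ℤ → Finset ℤ)
    (hX : ∀ x ∈ Xs, 0 ≤ x ∧ x < q ∧ 0 ≤ tau x ∧ tau x < q)
    (hA : ∀ x ∈ Xs, ∀ j ∈ ({1, 2, 3} : Finset ℤ), x - j * tau x ∈ A j)
    (hsub : ∀ j ∈ ({1, 2, 3} : Finset ℤ), A j ⊆ Finset.Icc (-3 * (q : ℤ)) q) :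
    (Xs.card : ℝ) ^ (1 / r) ≤ C * 200 * q * (6 : ℝ) ^ (1 / r) *
      (((A 1).card : ℝ) ^ (1 / p₁.toReal) * ((A 2).card : ℝ) ^ (1 / p₂.toReal) *
        ((A 3).card : ℝ) ^ (1 / p₃.toReal)) := by
  obtain ⟨f₁, f₂, f₃, hn₁, hn₂, hn₃, hlow⟩ := exists_test_functions hq Xs (fun x => {tau x}) A
    (L := (1 : ℝ)) (K := fun j => ((A j).card : ℝ)) zero_le_one
    (fun x hx => ⟨(hX x hx).1, (hX x hx).2.1, by simp, by simpa using (hX x hx).2.2⟩)
    (by simpa using hA) (fun j hj => ⟨le_rfl, hsub j hj⟩) hr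
  set h : ℝ := (100 * q : ℝ)⁻¹ with hh
  have hqR : (0 : ℝ) < q := by exact_mod_cast hq
  have hh0 : 0 < h := by positivity
  set u₁ := 1 / p₁.toReal with hu₁
  set u₂ := 1 / p₂.toReal with hu₂
  set u₃ := 1 / p₃.toReal with hu₃
  have h1 : 0 ≤ u₁ := by positivity
  have h2 : 0 ≤ u₂ := by positivity
  have h3 : 0 ≤ u₃ := by positivity
  have hmain := hlow.trans ((hC f₁ f₂ f₃).trans
    (mul_le_mul' (mul_le_mul' (mul_le_mul_right (hn₁ p₁) _) (hn₂ p₂)) (hn₃ p₃)))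
  rw [← hu₁, ← hu₂, ← hu₃, ENNReal.ofReal_rpow_of_nonneg (by positivity) h1,
    ENNReal.ofReal_rpow_of_nonneg (by positivity) h2,
    ENNReal.ofReal_rpow_of_nonneg (by positivity) h3,
    ENNReal.ofReal_rpow_of_nonneg (by positivity) (by positivity),
    ← ENNReal.ofReal_coe_nnreal, ← ENNReal.ofReal_mul C.coe_nonneg,
    ← ENNReal.ofReal_mul (by positivity), ← ENNReal.ofReal_mul (by positivity),
    ENNReal.ofReal_le_ofReal_iff (by positivity)] at hmain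
  rw [Real.mul_rpow (by positivity) (by positivity), ← Real.rpow_mul (by positivity),
    mul_one_div_cancel hr.ne', Real.rpow_one, Real.mul_rpow (Nat.cast_nonneg _) hh0.le,
    Real.mul_rpow (by positivity) (Nat.cast_nonneg _),
    Real.mul_rpow (by positivity) (Nat.cast_nonneg _),
    Real.mul_rpow (by positivity) (Nat.cast_nonneg _)] at hmain
  have e : (6 * h) ^ u₁ * (6 * h) ^ u₂ * (6 * h) ^ u₃ = (6 : ℝ) ^ (1 / r) * h ^ (1 / r) := by
    rw [← Real.rpow_add (by positivity), ← Real.rpow_add (by positivity), hexp,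
      Real.mul_rpow (by norm_num) hh0.le]
  have hP : 0 < h ^ (1 / r) := Real.rpow_pos_of_pos hh0 _
  refine le_of_mul_le_mul_right ?_ (mul_pos (div_pos hh0 two_pos) hP)
  calc (Xs.card : ℝ) ^ (1 / r) * (h / 2 * h ^ (1 / r))
      = 1 * h / 2 * ((Xs.card : ℝ) ^ (1 / r) * h ^ (1 / r)) := by ring
    _ ≤ _ := hmain
    _ = C * ((6 * h) ^ u₁ * (6 * h) ^ u₂ * (6 * h) ^ u₃) *
          (((A 1).card : ℝ) ^ u₁ * ((A 2).card : ℝ) ^ u₂ * ((A 3).card : ℝ) ^ u₃) := by ring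
    _ = C * ((6 : ℝ) ^ (1 / r) * h ^ (1 / r)) *
          (((A 1).card : ℝ) ^ u₁ * ((A 2).card : ℝ) ^ u₂ * ((A 3).card : ℝ) ^ u₃) := by rw [e]
    _ = _ := by
        rw [hh]
        field_simp
        ring

/-- The exponents of a Hölder tuple. -/
theorem holder_exponents {p₁ p₂ p₃ : ℝ≥0∞} {r : ℝ} (hp₁ : 1 < p₁) (hp₂ : 1 < p₂) (hp₃ : 1 < p₃)
    (hr0 : 0 < r) (hH : 1 / ENNReal.ofReal r = 1 / p₁ + 1 / p₂ + 1 / p₃) :
    1 / p₁.toReal + 1 / p₂.toReal + 1 / p₃.toReal = 1 / r := by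
  have := congrArg ENNReal.toReal hH
  have hfin : ∀ p : ℝ≥0∞, 1 < p → 1 / p ≠ ∞ := fun p hp => by
    simp [one_div, ne_of_gt (zero_lt_one.trans hp)]
  rw [ENNReal.toReal_add (ENNReal.add_ne_top.2 ⟨hfin _ hp₁, hfin _ hp₂⟩) (hfin _ hp₃),
    ENNReal.toReal_add (hfin _ hp₁) (hfin _ hp₂)] at this
  simpa [one_div, ENNReal.toReal_inv, hr0.le] using this.symm

/-- Unboundedness from one digit set with an exponential gain. -/
theorem unbounded_of_digits {M : ℕ} (hM : 2 ≤ M) {D : Finset (ℤ × ℤ)} (hDne : D.Nonempty)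
    (hD : ∀ d ∈ D, |d.1| ≤ M ∧ |d.2| ≤ M)
    (hinj : ∀ d ∈ D, ∀ e ∈ D, (M : ℤ) ∣ (2 * d.1 - d.2) - (2 * e.1 - e.2) → d = e)
    {n₁ n₂ n₃ : ℕ} (h₁ : (D.image Prod.fst).card ≤ n₁) (h₂ : (D.image Prod.snd).card ≤ n₂)
    (h₃ : (D.image fun d => 2 * d.2 - d.1).card ≤ n₃)
    {p₁ p₂ p₃ : ℝ≥0∞} {r : ℝ} (hp₁ : 1 < p₁) (hp₂ : 1 < p₂) (hp₃ : 1 < p₃) (hr0 : 0 < r)
    (hH : 1 / ENNReal.ofReal r = 1 / p₁ + 1 / p₂ + 1 / p₃)
    (hgain : (M : ℝ) * ((n₁ : ℝ) ^ (1 / p₁.toReal) * (n₂ : ℝ) ^ (1 / p₂.toReal) *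
      (n₃ : ℝ) ^ (1 / p₃.toReal)) < (D.card : ℝ) ^ (1 / r)) :
    ¬ ∃ C : ℝ≥0, ∀ f₁ f₂ f₃ : SchwartzMap ℝ ℂ,
      eLpNorm (THT f₁ f₂ f₃) (ENNReal.ofReal r) volume ≤
        C * eLpNorm f₁ p₁ volume * eLpNorm f₂ p₂ volume * eLpNorm f₃ p₃ volume := by
  rintro ⟨C, hC⟩
  have hexp := holder_exponents hp₁ hp₂ hp₃ hr0 hH
  have hn₁ : 0 < n₁ := (Finset.card_pos.2 (hDne.image _)).trans_le h₁
  have hn₂ : 0 < n₂ := (Finset.card_pos.2 (hDne.image _)).trans_le h₂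
  have hn₃ : 0 < n₃ := (Finset.card_pos.2 (hDne.image _)).trans_le h₃
  set G : ℝ := (M : ℝ) * ((n₁ : ℝ) ^ (1 / p₁.toReal) * (n₂ : ℝ) ^ (1 / p₂.toReal) *
      (n₃ : ℝ) ^ (1 / p₃.toReal)) with hG
  have hMR : (0 : ℝ) < M := by exact_mod_cast (by omega : 0 < M)
  have hG0 : 0 < G := by positivity
  set E : ℝ := C * 200 * 32 * (6 : ℝ) ^ (1 / r) with hE
  obtain ⟨K, hK⟩ := pow_unbounded_of_one_lt E ((one_lt_div hG0).2 hgain)
  set P := digitPairs (M : ℤ) D K with hP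
  set MK : ℤ := (M : ℤ) ^ K with hMK
  have hM0 : (M : ℤ) ≠ 0 := by omega
  have hMK1 : 1 ≤ MK := one_le_pow₀ (by omega)
  set c : ℤ := 8 * MK with hc
  set Xs : Finset ℤ := P.image fun p => 2 * p.1 - p.2 + 2 * c with hXs
  have hex : ∀ x, ∃ t, x ∈ Xs → ∃ p ∈ P, x = 2 * p.1 - p.2 + 2 * c ∧ t = p.1 - p.2 + c := by
    intro x
    by_cases hx : x ∈ Xs
    · obtain ⟨p, hp, hpx⟩ := Finset.mem_image.1 hx
      exact ⟨_, fun _ => ⟨p, hp, hpx.symm, rfl⟩⟩
    · exact ⟨0, fun h => absurd h hx⟩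
  choose tau htau using hex
  have hb := digitPairs_bound (by omega : (2 : ℤ) ≤ (M : ℤ)) hD K
  set A : ℤ → Finset ℤ := fun j => P.image fun p =>
    (2 * p.1 - p.2 + 2 * c) - j * (p.1 - p.2 + c) with hA
  have hq : 0 < 32 * M ^ K := mul_pos (by norm_num) (pow_pos (by omega) K)
  have hqcast : ((32 * M ^ K : ℕ) : ℤ) = 32 * MK := by rw [hMK]; push_cast; ring
  have hmain := config_bound hr0 hexp hC hq Xs tau A
    (fun x hx => by
      obtain ⟨p, hp, hxp, htp⟩ := htau x hx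
      obtain ⟨hb1, hb2⟩ := hb p hp
      rw [abs_le, ← hMK] at hb1 hb2
      rw [hqcast, htp, hxp]
      refine ⟨?_, ?_, ?_, ?_⟩ <;> omega)
    (fun x hx j _ => by
      obtain ⟨p, hp, hxp, htp⟩ := htau x hx
      rw [htp, hxp]
      exact Finset.mem_image.2 ⟨p, hp, rfl⟩)
    (fun j hj z hz => by
      obtain ⟨p, hp, rfl⟩ := Finset.mem_image.1 hz
      obtain ⟨hb1, hb2⟩ := hb p hp
      rw [abs_le, ← hMK] at hb1 hb2
      rw [hqcast, Finset.mem_Icc]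
      simp only [Finset.mem_insert, Finset.mem_singleton] at hj
      rcases hj with rfl | rfl | rfl <;> constructor <;> omega)
  have hXcard : Xs.card = D.card ^ K := by
    rw [← card_digitPairs_main hM0 hinj K, hXs,
      show (fun p : ℤ × ℤ => 2 * p.1 - p.2 + 2 * c) =
        (fun z => z + 2 * c) ∘ fun p => 2 * p.1 - p.2 from rfl,
      ← Finset.image_image, Finset.card_image_of_injective _ (add_left_injective _)]
  have hAcard : ∀ (u v j b : ℤ) (n : ℕ), (∀ p : ℤ × ℤ,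
      (2 * p.1 - p.2 + 2 * c) - j * (p.1 - p.2 + c) = u * p.1 + v * p.2 + b) →
      (D.image fun d => u * d.1 + v * d.2).card ≤ n → (A j).card ≤ n ^ K := by
    intro u v j b n hlin hn
    have : A j = ((P.image fun p => u * p.1 + v * p.2).image fun z => z + b) := by
      rw [Finset.image_image]
      exact Finset.image_congr fun p _ => hlin p
    rw [this, Finset.card_image_of_injective _ (add_left_injective _)]
    exact (card_image_digitPairs_le _ u v D K).trans (Nat.pow_le_pow_left hn K)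
  have hA1 : (A 1).card ≤ n₁ ^ K :=
    hAcard 1 0 1 c n₁ (fun p => by ring) (by simpa using h₁)
  have hA2 : (A 2).card ≤ n₂ ^ K :=
    hAcard 0 1 2 0 n₂ (fun p => by ring) (by simpa using h₂)
  have hA3 : (A 3).card ≤ n₃ ^ K := by
    refine hAcard (-1) 2 3 (-c) n₃ (fun p => by ring) ?_
    refine le_trans (le_of_eq (congrArg Finset.card ?_)) h₃
    exact Finset.image_congr fun d _ => by ring
  have hpow : ∀ (a n : ℕ) (u : ℝ), 0 ≤ u → a ≤ n ^ K → (a : ℝ) ^ u ≤ ((n : ℝ) ^ u) ^ K := by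
    intro a n u hu h
    refine (Real.rpow_le_rpow (Nat.cast_nonneg _) (show (a : ℝ) ≤ (n : ℝ) ^ K by
      exact_mod_cast h) hu).trans_eq ?_
    rw [Real.rpow_pow_comm (Nat.cast_nonneg _)]
  rw [hXcard, Nat.cast_pow, ← Real.rpow_pow_comm (Nat.cast_nonneg _)] at hmain
  have hle : ((D.card : ℝ) ^ (1 / r)) ^ K ≤ E * G ^ K := by
    refine hmain.trans ?_
    calc _ ≤ (C : ℝ) * 200 * ((32 * M ^ K : ℕ) : ℝ) * (6 : ℝ) ^ (1 / r) *
          (((n₁ : ℝ) ^ (1 / p₁.toReal)) ^ K * ((n₂ : ℝ) ^ (1 / p₂.toReal)) ^ K *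
            ((n₃ : ℝ) ^ (1 / p₃.toReal)) ^ K) := by
          refine mul_le_mul_of_nonneg_left ?_ (by positivity)
          gcongr
          · exact hpow _ _ _ (by positivity) hA1
          · exact hpow _ _ _ (by positivity) hA2
          · exact hpow _ _ _ (by positivity) hA3
      _ = E * G ^ K := by
          rw [hE, hG, mul_pow, mul_pow, mul_pow]
          push_cast
          ring
  rw [div_pow, lt_div_iff₀ (pow_pos hG0 K)] at hK
  linarith

end Vale.Agent.P141
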