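import Vale.Agent.P141.Digits
import Mathlib.Analysis.SpecialFunctions.Log.Basic
import Mathlib.Analysis.SpecialFunctions.Pow.Real
import Mathlib.Tactic.Rify

/-!
# Unboundedness for every exponent below one half, near the edges
-/

open MeasureTheory Filter Topology
open scoped ENNReal NNReal

namespace Vale.Agent.P141

/-- The analytic core: the gain inequality for a set of `k * L` digit pairs. -/
theorem edge_gain {k L : ℕ} (hk : 2 ≤ k) (hL : 1 ≤ L) {a b e s : ℝ}
    (hb1 : b ≤ 1) (he1 : e ≤ 1) (hsum : a + b + e = s)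
    (hlog : (1 - b) * Real.log L + 2 / (L : ℝ) < (s - 2) * Real.log k) :
    ((k * L : ℕ) : ℝ) * ((L : ℝ) ^ a * (k : ℝ) ^ b * ((L + 2 : ℕ) : ℝ) ^ e) <
      ((k * L : ℕ) : ℝ) ^ s := by
  have hk0 : (0 : ℝ) < k := by exact_mod_cast (by omega : 0 < k)
  have hL0 : (0 : ℝ) < L := by exact_mod_cast hL
  have hl2 : (0 : ℝ) < ((L + 2 : ℕ) : ℝ) := by positivity
  have hlk : 0 ≤ Real.log k := Real.log_nonneg (by exact_mod_cast (by omega : 1 ≤ k))
  push_cast
  rw [← Real.log_lt_log_iff (by positivity) (by positivity),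
    Real.log_mul (by positivity) (by positivity), Real.log_mul (by positivity) (by positivity),
    Real.log_mul (by positivity) (by positivity), Real.log_mul (by positivity) (by positivity),
    Real.log_rpow hL0, Real.log_rpow hk0, Real.log_rpow (by positivity),
    Real.log_rpow (by positivity), Real.log_mul (by positivity) (by positivity)]
  have hd : Real.log ((L : ℝ) + 2) - Real.log L ≤ 2 / L := by
    have h := Real.log_le_sub_one_of_pos (show (0 : ℝ) < ((L : ℝ) + 2) / L by positivity)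
    rw [Real.log_div (by positivity) (by positivity)] at h
    refine h.trans_eq ?_
    field_simp
    ring
  have he : e * (Real.log ((L : ℝ) + 2) - Real.log L) ≤ 2 / L := by
    have hnn : 0 ≤ Real.log ((L : ℝ) + 2) - Real.log L :=
      sub_nonneg.2 (Real.log_le_log hL0 (by linarith))
    nlinarith [mul_le_mul_of_nonneg_right he1 hnn]
  subst hsum
  nlinarith [mul_le_mul_of_nonneg_right hb1 hlk]

/-- Digit set for the edge `p₂ = 1`. -/
noncomputable def digitsSnd (L : ℕ) : Finset (ℤ × ℤ) := Finset.Ico (0 : ℤ) L ×ˢ Finset.Ico (0 : ℤ) 2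

/-- Digit set for the edge `p₃ = 1`. -/
noncomputable def digitsThird (L : ℕ) : Finset (ℤ × ℤ) :=
  (Finset.Ico (0 : ℤ) L ×ˢ Finset.Ico (0 : ℤ) 3).image fun w => (2 * w.1, w.1 + w.2)

theorem eq_of_dvd_sub_of_lt {M a b : ℤ} (h : M ∣ a - b) (h1 : a - b < M) (h2 : b - a < M) :
    a = b := by
  have hab : |a - b| < M := abs_lt.2 ⟨by linarith, h1⟩
  linarith [Int.eq_zero_of_abs_lt_dvd h hab]

/-- For every `r < 1/2` the transform is unbounded at all tuples near two edges. -/
theorem unbounded_near_edges (r : ℝ) (hr0 : 0 < r) (hr : r < 1 / 2) :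
    ∃ eta : ℝ, 0 < eta ∧ ∀ p₁ p₂ p₃ : ℝ≥0∞, 1 < p₁ → 1 < p₂ → 1 < p₃ →
      1 / ENNReal.ofReal r = 1 / p₁ + 1 / p₂ + 1 / p₃ →
      (p₂ < 1 + ENNReal.ofReal eta ∨ p₃ < 1 + ENNReal.ofReal eta) →
      ¬ ∃ C : ℝ≥0, ∀ f₁ f₂ f₃ : SchwartzMap ℝ ℂ,
        eLpNorm (THT f₁ f₂ f₃) (ENNReal.ofReal r) volume ≤
          C * eLpNorm f₁ p₁ volume * eLpNorm f₂ p₂ volume * eLpNorm f₃ p₃ volume := by
  set c : ℝ := 1 / r - 2 with hc
  have hc0 : 0 < c := by
    rw [hc, sub_pos, lt_div_iff₀ hr0]
    linarith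
  have hl2 : 0 < Real.log 2 := Real.log_pos (by norm_num)
  obtain ⟨L, hL⟩ := exists_nat_gt (max 1 (4 / (c * Real.log 2)))
  have hL1 : (1 : ℝ) < L := (le_max_left _ _).trans_lt hL
  have hL1' : 1 ≤ L := by exact_mod_cast hL1.le
  have hlL : 0 < Real.log L := Real.log_pos hL1
  set eta : ℝ := c * Real.log 2 / (2 * Real.log L) with heta
  have heta0 : 0 < eta := by positivity
  refine ⟨eta, heta0, fun p₁ p₂ p₃ hp₁ hp₂ hp₃ hH hedge => ?_⟩
  have hexp := holder_exponents hp₁ hp₂ hp₃ hr0 hH
  have hu : ∀ p : ℝ≥0∞, 1 < p → 0 ≤ 1 / p.toReal ∧ 1 / p.toReal ≤ 1 := by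
    intro p hp
    refine ⟨by positivity, ?_⟩
    rcases eq_or_ne p ∞ with rfl | hpt
    · simp
    · have h1 : 1 < p.toReal := by
        rw [← ENNReal.toReal_one]
        exact (ENNReal.toReal_lt_toReal ENNReal.one_ne_top hpt).2 hp
      rw [div_le_one (by linarith)]
      exact h1.le
  have hnear : ∀ p : ℝ≥0∞, 1 < p → p < 1 + ENNReal.ofReal eta →
      ∀ k : ℕ, 2 ≤ k →
        (1 - 1 / p.toReal) * Real.log L + 2 / (L : ℝ) < (1 / r - 2) * Real.log k := by
    intro p hp hpe k hk
    have hpt : p ≠ ∞ := (hpe.trans_le le_top).ne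
    have hp1 : 1 < p.toReal := by
      rw [← ENNReal.toReal_one]
      exact (ENNReal.toReal_lt_toReal ENNReal.one_ne_top hpt).2 hp
    have hp2 : p.toReal < 1 + eta := by
      have := (ENNReal.toReal_lt_toReal hpt (ENNReal.add_ne_top.2
        ⟨ENNReal.one_ne_top, ENNReal.ofReal_ne_top⟩)).2 hpe
      rwa [ENNReal.toReal_add ENNReal.one_ne_top ENNReal.ofReal_ne_top, ENNReal.toReal_one,
        ENNReal.toReal_ofReal heta0.le] at this
    have h1 : 1 - 1 / p.toReal < eta := by
      rw [one_sub_div (by linarith), div_lt_iff₀ (by linarith)]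
      nlinarith
    have h2 : (1 - 1 / p.toReal) * Real.log L < c * Real.log 2 / 2 := by
      refine (mul_lt_mul_of_pos_right h1 hlL).trans_eq ?_
      rw [heta]
      field_simp
    have h3 : 2 / (L : ℝ) < c * Real.log 2 / 2 := by
      have := (le_max_right _ _).trans_lt hL
      rw [div_lt_iff₀ (by positivity)] at this
      rw [div_lt_div_iff₀ (by linarith) two_pos]
      linarith
    have h4 : Real.log 2 ≤ Real.log k :=
      Real.log_le_log two_pos (by exact_mod_cast hk)
    rw [← hc]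
    nlinarith [mul_le_mul_of_nonneg_left h4 hc0.le]
  rcases hedge with h | h
  · have hcard : (digitsSnd L).card = 2 * L := by simp [digitsSnd, mul_comm]
    refine unbounded_of_digits (M := 2 * L) (D := digitsSnd L) (n₁ := L) (n₂ := 2)
      (n₃ := L + 2) (by omega) (Finset.card_pos.1 (by rw [hcard]; omega)) ?_ ?_ ?_ ?_ ?_
      hp₁ hp₂ hp₃ hr0 hH ?_
    · rintro ⟨a, b⟩ hd
      simp only [digitsSnd, Finset.mem_product, Finset.mem_Ico] at hd
      push_cast
      rw [abs_le, abs_le]
      refine ⟨⟨?_, ?_⟩, ⟨?_, ?_⟩⟩ <;> omega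
    · rintro ⟨a, b⟩ hd ⟨a', b'⟩ he hdvd
      simp only [digitsSnd, Finset.mem_product, Finset.mem_Ico] at hd he
      push_cast at hdvd
      have := eq_of_dvd_sub_of_lt hdvd (by omega) (by omega)
      ext <;> omega
    · refine (Finset.card_le_card (t := Finset.Ico (0 : ℤ) L) ?_).trans (by simp)
      intro z hz
      simp only [digitsSnd, Finset.mem_image, Finset.mem_product] at hz
      obtain ⟨d, hd, rfl⟩ := hz
      exact hd.1
    · refine (Finset.card_le_card (t := Finset.Ico (0 : ℤ) 2) ?_).trans (by simp)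
      intro z hz
      simp only [digitsSnd, Finset.mem_image, Finset.mem_product] at hz
      obtain ⟨d, hd, rfl⟩ := hz
      exact hd.2
    · refine (Finset.card_le_card (t := Finset.Icc (1 - (L : ℤ)) 2) ?_).trans (by simp; omega)
      intro z hz
      simp only [digitsSnd, Finset.mem_image, Finset.mem_product, Finset.mem_Ico] at hz
      obtain ⟨d, hd, rfl⟩ := hz
      rw [Finset.mem_Icc]
      omega
    · rw [hcard]
      exact edge_gain le_rfl hL1' (hu _ hp₂).2 (hu _ hp₃).2 hexp
        (hnear _ hp₂ h 2 le_rfl)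
  · have hcard : (digitsThird L).card = 3 * L := by
      rw [digitsThird, Finset.card_image_of_injective]
      · simp [mul_comm]
      · rintro ⟨a, b⟩ ⟨a', b'⟩ hw
        simp only [Prod.mk.injEq] at hw
        ext <;> simp <;> omega
    refine unbounded_of_digits (M := 3 * L) (D := digitsThird L) (n₁ := L) (n₂ := L + 2)
      (n₃ := 3) (by omega) (Finset.card_pos.1 (by rw [hcard]; omega)) ?_ ?_ ?_ ?_ ?_
      hp₁ hp₂ hp₃ hr0 hH ?_
    · intro d hd
      simp only [digitsThird, Finset.mem_image, Finset.mem_product, Finset.mem_Ico] at hd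
      obtain ⟨⟨m, k⟩, hw, rfl⟩ := hd
      simp only at hw ⊢
      push_cast
      rw [abs_le, abs_le]
      refine ⟨⟨?_, ?_⟩, ⟨?_, ?_⟩⟩ <;> omega
    · intro d hd e he hdvd
      simp only [digitsThird, Finset.mem_image, Finset.mem_product, Finset.mem_Ico] at hd he
      obtain ⟨⟨m, k⟩, hw, rfl⟩ := hd
      obtain ⟨⟨m', k'⟩, hw', rfl⟩ := he
      push_cast at hdvd
      simp only at hw hw' hdvd ⊢
      have := eq_of_dvd_sub_of_lt hdvd (by omega) (by omega)
      ext <;> simp <;> omega
    · refine (Finset.card_le_card (t := (Finset.Ico (0 : ℤ) L).image fun m => 2 * m) ?_).trans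
        (Finset.card_image_le.trans (by simp))
      intro z hz
      simp only [digitsThird, Finset.mem_image, Finset.mem_product] at hz ⊢
      obtain ⟨d, ⟨w, hw, rfl⟩, rfl⟩ := hz
      exact ⟨w.1, hw.1, rfl⟩
    · refine (Finset.card_le_card (t := Finset.Icc (0 : ℤ) ((L : ℤ) + 1)) ?_).trans
        (by simp only [Int.card_Icc]; omega)
      intro z hz
      simp only [digitsThird, Finset.mem_image, Finset.mem_product, Finset.mem_Ico] at hz
      obtain ⟨d, ⟨w, hw, rfl⟩, rfl⟩ := hz
      rw [Finset.mem_Icc]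
      simp only
      omega
    · refine (Finset.card_le_card (t := (Finset.Ico (0 : ℤ) 3).image fun k => 2 * k) ?_).trans
        (Finset.card_image_le.trans (by simp))
      intro z hz
      simp only [digitsThird, Finset.mem_image, Finset.mem_product] at hz ⊢
      obtain ⟨d, ⟨w, hw, rfl⟩, rfl⟩ := hz
      exact ⟨w.2, hw.2, by ring⟩
    · rw [hcard]
      have hs : 1 / p₁.toReal + 1 / p₃.toReal + 1 / p₂.toReal = 1 / r := by linarith
      refine lt_of_eq_of_lt ?_ (edge_gain (by norm_num : 2 ≤ 3) hL1' (hu _ hp₃).2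
        (hu _ hp₂).2 hs (hnear _ hp₃ h 3 (by norm_num)))
      push_cast
      ring

end Vale.Agent.P141
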