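import Vale.Agent.P141.Main
import Vale.Agent.P141.Digits
import Mathlib.Analysis.SpecialFunctions.Log.Basic
import Mathlib.Analysis.SpecialFunctions.Pow.Real
import Mathlib.Analysis.Complex.ExponentialBounds

/-!
# The edge `p₁ = 1`

The seed is a product of two biased two-point laws, `x = 3 e - s`, `t = e - s`.
-/

open MeasureTheory Filter Topology
open scoped ENNReal NNReal

namespace Vale.Agent.P141

/-- Exponential growth beats any power of the error factor. -/
theorem eventually_growth_pow {N : ℕ} (hN : N ≠ 0) {l : ℝ} (hl : 1 < l) (D : ℝ) (k : ℕ) :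
    ∀ᶠ m : ℕ in atTop, D < l ^ m / err N m ^ k := by
  have h0 := tendsto_pow_const_div_const_pow_of_one_lt (N * k) hl
  set c : ℝ := (Real.exp 1 * N) ^ (N * k) with hc
  have hNR : (0 : ℝ) < N := by exact_mod_cast Nat.pos_of_ne_zero hN
  have hcp : 0 < c := by positivity
  have h1 : Tendsto (fun m : ℕ => c * ((m : ℝ) ^ (N * k) / l ^ m)) atTop (𝓝[>] 0) := by
    refine tendsto_nhdsWithin_iff.2 ⟨by simpa using h0.const_mul c, ?_⟩
    filter_upwards [eventually_ne_atTop 0] with m hm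
    have : (0 : ℝ) < m := by exact_mod_cast Nat.pos_of_ne_zero hm
    exact mul_pos hcp (div_pos (by positivity) (by positivity))
  filter_upwards [h1.inv_tendsto_nhdsGT_zero.eventually_gt_atTop D] with m hm
  refine hm.trans_le (le_of_eq ?_)
  have he : err N m ^ k = c * (m : ℝ) ^ (N * k) := by
    rw [hc, err, ← pow_mul, ← mul_pow]
    congr 1
    ring
  simp only [Pi.inv_apply, he]
  rw [← mul_div_assoc, inv_div]

/-- The bookkeeping of constants in the seed argument. -/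
theorem graph_algebra {u₁ u₂ u₃ t C Q P Bx c₁ c₂ c₃ L : ℝ} {m k : ℕ}
    (hexp : u₁ + u₂ + u₃ = t) (hk : 2 * t + 1 ≤ k) (hP1 : 1 ≤ P)
    (hpos : 0 ≤ c₁ ∧ 0 ≤ c₂ ∧ 0 ≤ c₃ ∧ 0 ≤ Bx)
    (hkey : L / (P ^ t * (4 : ℝ) ^ t) ≤ C * (Q * (P * Bx ^ m)) * (6 : ℝ) ^ t *
      (((5 : ℝ) ^ u₁ * P ^ u₁ * (c₁ ^ u₁) ^ m) * ((5 : ℝ) ^ u₂ * P ^ u₂ * (c₂ ^ u₂) ^ m) *
       ((5 : ℝ) ^ u₃ * P ^ u₃ * (c₃ ^ u₃) ^ m))) (hC : 0 ≤ C) (hQ : 0 ≤ Q) :
    L ≤ (4 : ℝ) ^ t * (C * (6 : ℝ) ^ t) * Q * (5 : ℝ) ^ t *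
      (Bx * (c₁ ^ u₁ * c₂ ^ u₂ * c₃ ^ u₃)) ^ m * P ^ k := by
  obtain ⟨h1, h2, h3, h4⟩ := hpos
  have hP0 : 0 < P := by linarith
  have he5 : (5 : ℝ) ^ u₁ * (5 : ℝ) ^ u₂ * (5 : ℝ) ^ u₃ = (5 : ℝ) ^ t := by
    rw [← Real.rpow_add (by norm_num), ← Real.rpow_add (by norm_num), hexp]
  have heP : P ^ u₁ * P ^ u₂ * P ^ u₃ = P ^ t := by
    rw [← Real.rpow_add hP0, ← Real.rpow_add hP0, hexp]
  have hPk : P ^ t * P * P ^ t ≤ P ^ k := by
    rw [show P ^ t * P * P ^ t = P ^ (t + 1 + t) by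
      rw [Real.rpow_add hP0, Real.rpow_add hP0, Real.rpow_one], ← Real.rpow_natCast P k]
    exact Real.rpow_le_rpow_of_exponent_le hP1 (by linarith)
  rw [div_le_iff₀ (by positivity)] at hkey
  refine hkey.trans ?_
  calc _ = (4 : ℝ) ^ t * (C * (6 : ℝ) ^ t) * Q *
        ((5 : ℝ) ^ u₁ * (5 : ℝ) ^ u₂ * (5 : ℝ) ^ u₃) *
        (Bx * (c₁ ^ u₁ * c₂ ^ u₂ * c₃ ^ u₃)) ^ m *
        (P ^ t * P * (P ^ u₁ * P ^ u₂ * P ^ u₃)) := by
        rw [mul_pow, mul_pow, mul_pow]
        ring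
    _ ≤ _ := by
        rw [he5, heP]
        exact mul_le_mul_of_nonneg_left hPk (by positivity)

/-- The inequality that a bound forces at scale `m`. -/
theorem graph_scale {N : ℕ} (hN : N ≠ 0) {X₀ T₀ : Fin N → ℤ} {B : ℕ}
    (hsb : ∀ i, |X₀ i| ≤ B ∧ |T₀ i| ≤ B) (phi : ℤ → ℤ) (hphi : ∀ i, T₀ i = phi (X₀ i))
    {p₁ p₂ p₃ : ℝ≥0∞} {r : ℝ} (hr0 : 0 < r)
    (hexp : 1 / p₁.toReal + 1 / p₂.toReal + 1 / p₃.toReal = 1 / r) {C : ℝ≥0}
    (hC : ∀ f₁ f₂ f₃ : SchwartzMap ℝ ℂ, eLpNorm (THT f₁ f₂ f₃) (ENNReal.ofReal r) volume ≤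
      C * eLpNorm f₁ p₁ volume * eLpNorm f₂ p₂ volume * eLpNorm f₃ p₃ volume)
    {m : ℕ} (hm : m ≠ 0) :
    (base X₀ ^ (1 / r)) ^ m / (err N m ^ (1 / r) * (4 : ℝ) ^ (1 / r)) ≤
      (C : ℝ) * 200 * (2 * (104 + 2 * (B : ℝ)) * (err N m * base X₀ ^ m)) * (6 : ℝ) ^ (1 / r) *
      (((5 : ℝ) ^ (1 / p₁.toReal) * err N m ^ (1 / p₁.toReal) * (base (projWord X₀ T₀ 1) ^ (1 / p₁.toReal)) ^ m) *
       ((5 : ℝ) ^ (1 / p₂.toReal) * err N m ^ (1 / p₂.toReal) * (base (projWord X₀ T₀ 2) ^ (1 / p₂.toReal)) ^ m) *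
       ((5 : ℝ) ^ (1 / p₃.toReal) * err N m ^ (1 / p₃.toReal) * (base (projWord X₀ T₀ 3) ^ (1 / p₃.toReal)) ^ m)) := by
  set u₁ := 1 / p₁.toReal with hu₁
  set u₂ := 1 / p₂.toReal with hu₂
  set u₃ := 1 / p₃.toReal with hu₃
  have h1 : 0 ≤ u₁ := by positivity
  have h2 : 0 ≤ u₂ := by positivity
  have h3 : 0 ≤ u₃ := by positivity
  set Bx := base X₀
  have hBx : 0 < Bx := base_pos _
  have hb1 := base_pos (projWord X₀ T₀ 1)
  have hb2 := base_pos (projWord X₀ T₀ 2)
  have hb3 := base_pos (projWord X₀ T₀ 3)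
  set X := rep m X₀ with hXdef
  set T := rep m T₀ with hTdef
  set a := (arrangements X).card with ha
  set b := (arrangements (pairWord X T)).card with hb
  have hapos : 0 < a := Finset.card_pos.2 ⟨X, mem_arrangements.2 ⟨1, rfl⟩⟩
  have hbpos : 0 < b := Finset.card_pos.2 ⟨pairWord X T, mem_arrangements.2 ⟨1, rfl⟩⟩
  have hba : b ≤ a := by
    have h : pairWord X T = (fun z : ℤ => (z, phi z)) ∘ X := by
      funext i
      exact Prod.ext rfl (hphi i.2)
    rw [hb, h, ← image_arrangements]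
    exact Finset.card_image_le
  obtain ⟨q, hqp, hq1, hq2⟩ :=
    Nat.exists_prime_lt_and_le_two_mul (4 * a + 2 * B + 100) (by omega)
  have := Fact.mk hqp
  have hF : 4 * b ≤ q * a := by
    have h4 : 4 * a ≤ q * a := Nat.mul_le_mul_right a (by omega)
    omega
  obtain ⟨Xs, Ts, A, hXs, hX, hA, hAc⟩ := exists_configuration X T (q := q) (B := B)
    (fun k => (hsb k.2).1) (fun k => (hsb k.2).2) (by omega) (by omega) hF
  have hTne : ∀ x, ∃ t, x ∈ Xs → t ∈ Ts x := by
    intro x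
    by_cases hx : x ∈ Xs
    · have hpos : 0 < (Ts x).card := by
        rcases Nat.eq_zero_or_pos (Ts x).card with h | h
        · have := (hX x hx).2.2.1
          rw [h, mul_zero] at this
          omega
        · exact h
      obtain ⟨t, ht⟩ := Finset.card_pos.1 hpos
      exact ⟨t, fun _ => ht⟩
    · exact ⟨0, fun h => absurd h hx⟩
  choose tau htau using hTne
  have hmain := config_bound hr0 hexp hC hqp.pos Xs tau A
    (fun x hx => ⟨(hX x hx).1, (hX x hx).2.1, (hX x hx).2.2.2 _ (htau x hx)⟩)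
    (fun x hx j hj => hA x hx _ (htau x hx) j hj) (fun j _ => (hAc j).2)
  set P := err N m with hP
  have hP1 : 1 ≤ P := one_le_err hm hN
  have hP0 : 0 < P := by linarith
  have hqR : (q : ℝ) ≤ 2 * (104 + 2 * (B : ℝ)) * (P * Bx ^ m) := by
    have hq' : (q : ℝ) ≤ 2 * (4 * a + 2 * B + 100) := by exact_mod_cast hq2
    have ha1 : (1 : ℝ) ≤ a := by exact_mod_cast hapos
    have hau : (a : ℝ) ≤ P * Bx ^ m := (rep_bounds X₀ hm hN).1
    have hB0 : (0 : ℝ) ≤ B := Nat.cast_nonneg _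
    nlinarith
  have hA' : ∀ (j : ℤ) (u : ℝ), 0 ≤ u → ((A j).card : ℝ) ^ u ≤
      (5 : ℝ) ^ u * P ^ u * (base (projWord X₀ T₀ j) ^ u) ^ m := by
    intro j u hu
    have h' : ((A j).card : ℝ) ≤ 5 * (P * base (projWord X₀ T₀ j) ^ m) := by
      refine (show ((A j).card : ℝ) ≤ 5 * ((arrangements (projWord X T j)).card : ℝ) by
        exact_mod_cast (hAc j).1).trans ?_
      exact mul_le_mul_of_nonneg_left (rep_bounds (projWord X₀ T₀ j) hm hN).1 (by norm_num)
    have hb0 := base_pos (projWord X₀ T₀ j)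
    refine (Real.rpow_le_rpow (Nat.cast_nonneg _) h' hu).trans_eq ?_
    rw [Real.mul_rpow (by norm_num) (by positivity),
      Real.mul_rpow hP0.le (pow_nonneg hb0.le m), Real.rpow_pow_comm hb0.le]
    ring
  have hlow : (Bx ^ (1 / r)) ^ m / (P ^ (1 / r) * (4 : ℝ) ^ (1 / r)) ≤
      (Xs.card : ℝ) ^ (1 / r) := by
    have h' : Bx ^ m / (P * 4) ≤ (Xs.card : ℝ) := by
      have hal : Bx ^ m / P ≤ (a : ℝ) := (rep_bounds X₀ hm hN).2
      have h4 : (a : ℝ) ≤ 4 * Xs.card := by exact_mod_cast hXs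
      rw [div_le_iff₀ (by positivity)]
      rw [div_le_iff₀ hP0] at hal
      nlinarith
    refine le_trans (le_of_eq ?_) (Real.rpow_le_rpow (by positivity) h' (by positivity))
    rw [Real.div_rpow (by positivity) (by positivity), Real.rpow_pow_comm hBx.le,
      Real.mul_rpow hP0.le (by norm_num)]
  refine (hlow.trans hmain).trans ?_
  gcongr
  · exact hA' 1 u₁ h1
  · exact hA' 2 u₂ h2
  · exact hA' 3 u₃ h3

/-- Unboundedness from a seed in which the shift is a function of the output point. -/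
theorem unbounded_of_graph_seed {N : ℕ} (hN : N ≠ 0) {X₀ T₀ : Fin N → ℤ} {B : ℕ}
    (hsb : ∀ i, |X₀ i| ≤ B ∧ |T₀ i| ≤ B) (phi : ℤ → ℤ) (hphi : ∀ i, T₀ i = phi (X₀ i))
    {p₁ p₂ p₃ : ℝ≥0∞} {r : ℝ} (hp₁ : 1 < p₁) (hp₂ : 1 < p₂) (hp₃ : 1 < p₃) (hr0 : 0 < r)
    (hH : 1 / ENNReal.ofReal r = 1 / p₁ + 1 / p₂ + 1 / p₃)
    (hgain : base X₀ * (base (projWord X₀ T₀ 1) ^ (1 / p₁.toReal) *
      base (projWord X₀ T₀ 2) ^ (1 / p₂.toReal) * base (projWord X₀ T₀ 3) ^ (1 / p₃.toReal)) <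
      base X₀ ^ (1 / r)) :
    ¬ ∃ C : ℝ≥0, ∀ f₁ f₂ f₃ : SchwartzMap ℝ ℂ,
      eLpNorm (THT f₁ f₂ f₃) (ENNReal.ofReal r) volume ≤
        C * eLpNorm f₁ p₁ volume * eLpNorm f₂ p₂ volume * eLpNorm f₃ p₃ volume := by
  rintro ⟨C, hC⟩
  have hexp := holder_exponents hp₁ hp₂ hp₃ hr0 hH
  set u₁ := 1 / p₁.toReal with hu₁
  set u₂ := 1 / p₂.toReal with hu₂
  set u₃ := 1 / p₃.toReal with hu₃
  have h1 : 0 ≤ u₁ := by positivity
  have h2 : 0 ≤ u₂ := by positivity
  have h3 : 0 ≤ u₃ := by positivity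
  set Bx := base X₀
  set G : ℝ := Bx * (base (projWord X₀ T₀ 1) ^ u₁ * base (projWord X₀ T₀ 2) ^ u₂ *
    base (projWord X₀ T₀ 3) ^ u₃) with hG
  have hBx : 0 < Bx := base_pos _
  have hb1 := base_pos (projWord X₀ T₀ 1)
  have hb2 := base_pos (projWord X₀ T₀ 2)
  have hb3 := base_pos (projWord X₀ T₀ 3)
  have hG0 : 0 < G := by positivity
  -- the constant that exponential growth must beat
  set E : ℝ := (4 : ℝ) ^ (1 / r) * (C * 200 * (6 : ℝ) ^ (1 / r)) * (2 * (104 + 2 * (B : ℝ))) *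
    (5 : ℝ) ^ (1 / r) with hE
  -- polynomial errors: choose an exponent
  obtain ⟨k, hk⟩ := exists_nat_gt (2 * (1 / r) + 1)
  have hgrow : ∀ᶠ m : ℕ in atTop, E < (Bx ^ (1 / r) / G) ^ m / err N m ^ k :=
    eventually_growth_pow hN ((one_lt_div hG0).2 hgain) E k
  obtain ⟨m, hmE, hm⟩ := (hgrow.and (eventually_ne_atTop 0)).exists
  set P := err N m with hP
  have hP1 : 1 ≤ P := one_le_err hm hN
  have hP0 : 0 < P := by linarith
  have hkey := graph_scale hN hsb phi hphi hr0 hexp hC hm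
  have hfin : (Bx ^ (1 / r)) ^ m ≤ E * G ^ m * P ^ k := by
    exact graph_algebra hexp (by linarith) hP1 ⟨hb1.le, hb2.le, hb3.le, hBx.le⟩ hkey
      (by positivity) (by positivity)
  rw [lt_div_iff₀ (by positivity), div_pow, lt_div_iff₀ (by positivity)] at hmE
  nlinarith

variable {N : ℕ}

/-- The function `x log x` on natural numbers. -/
noncomputable def xlog (n : ℕ) : ℝ := (n : ℝ) * Real.log n

theorem log_selfPow_two {β : Type*} [DecidableEq β] (g : Fin N → β) :
    Real.log (base g) = xlog N - ∑ b ∈ Finset.univ.image g,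
      xlog (Finset.univ.filter fun i => g i = b).card := by
  have hN : (N : ℝ) ^ N ≠ 0 := by exact_mod_cast Nat.pow_self_pos.ne'
  have hs : (selfPow g : ℝ) ≠ 0 := by exact_mod_cast (selfPow_pos g).ne'
  rw [base, Real.log_div hN hs, Real.log_pow, selfPow, Nat.cast_prod, Real.log_prod]
  · simp [xlog, Real.log_pow]
  · intro b _
    exact_mod_cast Nat.pow_self_pos.ne'

/-- `log base` computed with any finite set that covers the values. -/
theorem log_base_eq {β : Type*} [DecidableEq β] (g : Fin N → β) (s : Finset β)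
    (hs : ∀ i, g i ∈ s) :
    Real.log (base g) = xlog N - ∑ b ∈ s, xlog (Finset.univ.filter fun i => g i = b).card := by
  rw [log_selfPow_two]
  congr 1
  refine Finset.sum_subset (fun b hb => ?_) fun b _ hb => ?_
  · obtain ⟨i, -, rfl⟩ := Finset.mem_image.1 hb
    exact hs i
  · have : (Finset.univ.filter fun i => g i = b) = ∅ := by
      rw [Finset.filter_eq_empty_iff]
      exact fun i _ h => hb (Finset.mem_image.2 ⟨i, Finset.mem_univ _, h⟩)
    simp [this, xlog]

section Seed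

variable (m M : ℕ)

/-- The rare coordinate of the seed. -/
def seedE (i : Fin ((M + 1) * (m + 1))) : ℤ :=
  if (finProdFinEquiv.symm i).1.1 < M then 0 else 1

/-- The common coordinate of the seed. -/
def seedS (i : Fin ((M + 1) * (m + 1))) : ℤ :=
  if (finProdFinEquiv.symm i).2.1 < m then 0 else 1

/-- The output word `3 e - s`. -/
def edgeX (i : Fin ((M + 1) * (m + 1))) : ℤ := 3 * seedE m M i - seedS m M i

/-- The shift word `e - s`. -/
def edgeT (i : Fin ((M + 1) * (m + 1))) : ℤ := seedE m M i - seedS m M i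

theorem card_filter_seed (P : ℤ → ℤ → Prop) [DecidableRel P] :
    (Finset.univ.filter fun i : Fin ((M + 1) * (m + 1)) => P (seedE m M i) (seedS m M i)).card =
      (if P 0 0 then M * m else 0) + (if P 0 1 then M else 0) +
      (if P 1 0 then m else 0) + (if P 1 1 then 1 else 0) := by
  rw [Finset.card_filter, ← finProdFinEquiv.sum_comp, Fintype.sum_prod_type]
  simp only [seedE, seedS, Equiv.symm_apply_apply]
  rw [Fin.sum_univ_castSucc]
  simp only [Fin.sum_univ_castSucc, Fin.val_castSucc, Fin.is_lt, Fin.val_last, lt_self_iff_false,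
    if_true, if_false, Finset.sum_const, Finset.card_univ, Fintype.card_fin, smul_eq_mul,
    mul_add]
  split_ifs <;> ring

theorem seed_values (i : Fin ((M + 1) * (m + 1))) :
    (seedE m M i = 0 ∨ seedE m M i = 1) ∧ (seedS m M i = 0 ∨ seedS m M i = 1) := by
  unfold seedE seedS
  split_ifs <;> simp

end Seed

theorem xlog_mul {a b : ℕ} (ha : a ≠ 0) (hb : b ≠ 0) :
    xlog (a * b) = (a : ℝ) * xlog b + (b : ℝ) * xlog a := by
  simp only [xlog, Nat.cast_mul]
  rw [Real.log_mul (by exact_mod_cast ha) (by exact_mod_cast hb)]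
  ring

/-- A tangent line lies below `x log x`. -/
theorem xlog_tangent {x y : ℕ} (hx : x ≠ 0) (hy : y ≠ 0) :
    xlog x + ((y : ℝ) - x) * (Real.log x + 1) ≤ xlog y := by
  have hx0 : (0 : ℝ) < x := by exact_mod_cast Nat.pos_of_ne_zero hx
  have hy0 : (0 : ℝ) < y := by exact_mod_cast Nat.pos_of_ne_zero hy
  have h := Real.log_le_sub_one_of_pos (show (0 : ℝ) < (x : ℝ) / y by positivity)
  rw [Real.log_div hx0.ne' hy0.ne', div_sub_one hy0.ne', le_div_iff₀ hy0] at h
  simp only [xlog]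
  nlinarith

theorem xlog_one : xlog 1 = 0 := by simp [xlog]

theorem log_base_edgeX {m M : ℕ} (hm0 : m ≠ 0) (hM0 : M ≠ 0) :
    Real.log (base (edgeX m M)) =
      (((m : ℝ) + 1) * (xlog (M + 1) - xlog M)) + (((M : ℝ) + 1) * (xlog (m + 1) - xlog m)) := by
  rw [log_base_eq (edgeX m M) {0, -1, 3, 2} (fun i => by
    rcases (seed_values m M i).1 with h | h <;> rcases (seed_values m M i).2 with h' | h' <;> simp [edgeX, h, h'])]
  rw [Finset.sum_insert (by simp), Finset.sum_insert (by simp), Finset.sum_pair (by norm_num)]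
  simp only [show ∀ b : ℤ, (Finset.univ.filter fun i => edgeX m M i = b).card =
    _ from fun b => card_filter_seed m M (fun e s => 3 * e - s = b)]
  norm_num
  rw [xlog_mul hM0 hm0, xlog_one, xlog_mul (by omega : M + 1 ≠ 0) (by omega : m + 1 ≠ 0)]
  push_cast
  ring

theorem log_base_edge_one {m M : ℕ} (hm0 : m ≠ 0) (hM0 : M ≠ 0) :
    Real.log (base (projWord (edgeX m M) (edgeT m M) 1)) =
      (((m : ℝ) + 1) * (xlog (M + 1) - xlog M)) := by
  rw [log_base_eq _ {0, 2} (fun i => by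
    rcases (seed_values m M i).1 with h | h <;> rcases (seed_values m M i).2 with h' | h' <;>
      simp [projWord, edgeX, edgeT, h, h'])]
  rw [Finset.sum_pair (by norm_num)]
  simp only [show ∀ b : ℤ, (Finset.univ.filter fun i =>
    projWord (edgeX m M) (edgeT m M) 1 i = b).card = _ from
      fun b => card_filter_seed m M (fun e s => 3 * e - s - 1 * (e - s) = b)]
  norm_num
  rw [show M * m + M = M * (m + 1) by ring, xlog_mul hM0 (by omega), xlog_mul (by omega : M + 1 ≠ 0) (by omega : m + 1 ≠ 0)]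
  push_cast
  ring

theorem log_base_edge_two {m M : ℕ} (hm0 : m ≠ 0) (hM0 : M ≠ 0) :
    Real.log (base (projWord (edgeX m M) (edgeT m M) 2)) =
      (xlog ((M + 1) * (m + 1)) - xlog (M * m) - xlog (M + m)) := by
  rw [log_base_eq _ {0, 1, 2} (fun i => by
    rcases (seed_values m M i).1 with h | h <;> rcases (seed_values m M i).2 with h' | h' <;>
      simp [projWord, edgeX, edgeT, h, h'])]
  rw [Finset.sum_insert (by simp), Finset.sum_pair (by norm_num)]
  simp only [show ∀ b : ℤ, (Finset.univ.filter fun i =>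
    projWord (edgeX m M) (edgeT m M) 2 i = b).card = _ from
      fun b => card_filter_seed m M (fun e s => 3 * e - s - 2 * (e - s) = b)]
  norm_num
  rw [xlog_one]
  ring

theorem log_base_edge_three {m M : ℕ} (hm0 : m ≠ 0) (hM0 : M ≠ 0) :
    Real.log (base (projWord (edgeX m M) (edgeT m M) 3)) =
      (((M : ℝ) + 1) * (xlog (m + 1) - xlog m)) := by
  rw [log_base_eq _ {0, 2} (fun i => by
    rcases (seed_values m M i).1 with h | h <;> rcases (seed_values m M i).2 with h' | h' <;>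
      simp [projWord, edgeX, edgeT, h, h'])]
  rw [Finset.sum_pair (by norm_num)]
  simp only [show ∀ b : ℤ, (Finset.univ.filter fun i =>
    projWord (edgeX m M) (edgeT m M) 3 i = b).card = _ from
      fun b => card_filter_seed m M (fun e s => 3 * e - s - 3 * (e - s) = b)]
  norm_num
  rw [show M * m + m = m * (M + 1) by ring, xlog_mul hm0 (by omega), xlog_mul (by omega : M + 1 ≠ 0) (by omega : m + 1 ≠ 0)]
  push_cast
  ring

/-- The estimates on the three entropies of the seed. -/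
theorem edge_estimates {m j M : ℕ} (hm3 : (3 : ℝ) < m) (hj1 : (1 : ℝ) < j) (hM : M = m ^ j)
    (hm0 : m ≠ 0) (hM0 : M ≠ 0) (hMm : m ≤ M) :
    ((m : ℝ) + 1) * Real.log ((M : ℝ) + 1) ≤ (((m : ℝ) + 1) * (xlog (M + 1) - xlog M)) ∧ 0 < (((M : ℝ) + 1) * (xlog (m + 1) - xlog m)) ∧
    (xlog ((M + 1) * (m + 1)) - xlog (M * m) - xlog (M + m)) - (((M : ℝ) + 1) * (xlog (m + 1) - xlog m)) ≤ (1 / (j : ℝ) + 2 / m) * (((m : ℝ) + 1) * (xlog (M + 1) - xlog M)) := by
  set N := (M + 1) * (m + 1) with hN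
  set he : ℝ := ((m : ℝ) + 1) * (xlog (M + 1) - xlog M) with hhe
  set hs : ℝ := ((M : ℝ) + 1) * (xlog (m + 1) - xlog m) with hhs
  set hb : ℝ := xlog N - xlog (M * m) - xlog (M + m) with hhb
  have hxN : xlog N = ((M : ℝ) + 1) * xlog (m + 1) + ((m : ℝ) + 1) * xlog (M + 1) := by
    rw [hN, xlog_mul (by omega) (by omega)]
    push_cast
    ring
  have hmR : (0 : ℝ) < m := by linarith
  have hMR : (0 : ℝ) < M := by exact_mod_cast Nat.pos_of_ne_zero hM0
  have hlm : 1 ≤ Real.log m := by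
    rw [Real.le_log_iff_exp_le hmR]
    linarith [Real.exp_one_lt_d9]
  have hlM : Real.log M = j * Real.log m := by
    rw [hM, Nat.cast_pow, Real.log_pow]
  have hlM1 : Real.log M ≤ Real.log ((M : ℝ) + 1) := Real.log_le_log hMR (by linarith)
  have hepos : ((m : ℝ) + 1) * Real.log ((M : ℝ) + 1) ≤ he := by
    rw [hhe]
    refine mul_le_mul_of_nonneg_left ?_ (by positivity)
    have := mul_le_mul_of_nonneg_left hlM1 hMR.le
    simp only [xlog]
    push_cast
    linarith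
  have hhs0 : 0 < hs := by
    rw [hhs]
    refine mul_pos (by positivity) (sub_pos.2 ?_)
    have h : Real.log m ≤ Real.log ((m : ℝ) + 1) := Real.log_le_log hmR (by linarith)
    simp only [xlog]
    push_cast
    nlinarith [mul_le_mul_of_nonneg_left h hmR.le]
  have hdelta : hb - hs ≤ (1 / (j : ℝ) + 2 / m) * he := by
    have hNe : xlog N = ((M : ℝ) + 1) * xlog (m + 1) + ((m : ℝ) + 1) * xlog (M + 1) := hxN
    have t1 := xlog_tangent (x := m * (M + 1)) (y := M * m) (by positivity) (by positivity)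
    have t2 := xlog_tangent (x := M + 1) (y := M + m) (by omega) (by omega)
    rw [xlog_mul hm0 (by omega : M + 1 ≠ 0)] at t1
    push_cast at t1 t2
    rw [Real.log_mul hmR.ne' (by positivity)] at t1
    have e : hb - hs ≤ (m : ℝ) * Real.log m + Real.log ((M : ℝ) + 1) + 1 := by
      rw [hhb, hhs, hNe]
      linarith
    refine e.trans ?_
    have hpos : 0 ≤ 1 / (j : ℝ) + 2 / m := by positivity
    refine le_trans ?_ (mul_le_mul_of_nonneg_left hepos hpos)
    have hjpos : (0 : ℝ) < j := by linarith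
    have a1 : (m : ℝ) * Real.log m ≤ 1 / (j : ℝ) * (((m : ℝ) + 1) * Real.log ((M : ℝ) + 1)) := by
      rw [div_mul_eq_mul_div, one_mul, le_div_iff₀ hjpos]
      nlinarith [mul_le_mul_of_nonneg_left hlM1 hmR.le]
    have hL1 : 1 ≤ Real.log ((M : ℝ) + 1) := by
      refine hlm.trans (Real.log_le_log hmR ?_)
      have : (m : ℝ) ≤ M := by exact_mod_cast hMm
      linarith
    have a2 : Real.log ((M : ℝ) + 1) + 1 ≤
        2 / (m : ℝ) * (((m : ℝ) + 1) * Real.log ((M : ℝ) + 1)) := by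
      rw [div_mul_eq_mul_div, le_div_iff₀ hmR]
      nlinarith
    linarith
  exact ⟨hepos, hhs0, hdelta⟩

/-- For every `r < 1/2` the transform is unbounded at all tuples near the edge `p₁ = 1`. -/
theorem unbounded_near_first (r : ℝ) (hr0 : 0 < r) (hr : r < 1 / 2) :
    ∃ eta : ℝ, 0 < eta ∧ ∀ p₁ p₂ p₃ : ℝ≥0∞, 1 < p₁ → 1 < p₂ → 1 < p₃ →
      1 / ENNReal.ofReal r = 1 / p₁ + 1 / p₂ + 1 / p₃ →
      p₁ < 1 + ENNReal.ofReal eta →
      ¬ ∃ C : ℝ≥0, ∀ f₁ f₂ f₃ : SchwartzMap ℝ ℂ,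
        eLpNorm (THT f₁ f₂ f₃) (ENNReal.ofReal r) volume ≤
          C * eLpNorm f₁ p₁ volume * eLpNorm f₂ p₂ volume * eLpNorm f₃ p₃ volume := by
  set c : ℝ := 1 / r - 2 with hc
  have hc0 : 0 < c := by
    rw [hc, sub_pos, lt_div_iff₀ hr0]
    linarith
  obtain ⟨j, hj⟩ := exists_nat_gt (max 1 (4 / c))
  obtain ⟨m, hm⟩ := exists_nat_gt (max 3 (8 / c))
  have hj1 : (1 : ℝ) < j := (le_max_left _ _).trans_lt hj
  have hm3 : (3 : ℝ) < m := (le_max_left _ _).trans_lt hm
  have hjc : 1 / (j : ℝ) < c / 4 := by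
    have := (le_max_right _ _).trans_lt hj
    rw [div_lt_iff₀ hc0] at this
    rw [div_lt_div_iff₀ (by linarith) (by norm_num)]
    linarith
  have hmc : 2 / (m : ℝ) < c / 4 := by
    have := (le_max_right _ _).trans_lt hm
    rw [div_lt_iff₀ hc0] at this
    rw [div_lt_div_iff₀ (by linarith) (by norm_num)]
    linarith
  have hm0 : m ≠ 0 := by
    have : 3 < m := by exact_mod_cast hm3
    omega
  set M := m ^ j with hM
  have hM0 : M ≠ 0 := pow_ne_zero _ hm0
  have hMm : m ≤ M := Nat.le_self_pow (by rintro rfl; norm_num at hj1) m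
  set he : ℝ := ((m : ℝ) + 1) * (xlog (M + 1) - xlog M) with hhe
  set hs : ℝ := ((M : ℝ) + 1) * (xlog (m + 1) - xlog m) with hhs
  set hb : ℝ := xlog ((M + 1) * (m + 1)) - xlog (M * m) - xlog (M + m) with hhb
  have hsE : ∀ i, seedE m M i = 0 ∨ seedE m M i = 1 := fun i => (seed_values m M i).1
  have hsS : ∀ i, seedS m M i = 0 ∨ seedS m M i = 1 := fun i => (seed_values m M i).2
  have hX := log_base_edgeX hm0 hM0
  have h1 := log_base_edge_one hm0 hM0
  have h2 := log_base_edge_two hm0 hM0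
  have h3 := log_base_edge_three hm0 hM0
  obtain ⟨hepos, hhs0, hdelta⟩ := edge_estimates hm3 hj1 hM hm0 hM0 hMm
  rw [← hhe, ← hhs] at hX
  rw [← hhe] at h1 hepos
  rw [← hhb] at h2
  rw [← hhs] at h3 hhs0
  rw [← hhe, ← hhs, ← hhb] at hdelta
  have hepos0 : 0 < he := by
    refine lt_of_lt_of_le (mul_pos (by positivity) ?_) hepos
    exact Real.log_pos (by linarith [show (1 : ℝ) ≤ M by exact_mod_cast Nat.one_le_iff_ne_zero.2 hM0])
  set eta : ℝ := c * he / (4 * hs) with heta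
  have heta0 : 0 < eta := by positivity
  refine ⟨eta, heta0, fun p₁ p₂ p₃ hp₁ hp₂ hp₃ hH hnear => ?_⟩
  have hexp := holder_exponents hp₁ hp₂ hp₃ hr0 hH
  have hu : ∀ p : ℝ≥0∞, 1 < p → 0 ≤ 1 / p.toReal ∧ 1 / p.toReal ≤ 1 := by
    intro p hp
    refine ⟨by positivity, ?_⟩
    rcases eq_or_ne p ∞ with rfl | hpt
    · simp
    · have h1 : 1 < p.toReal := by
        rw [← ENNReal.toReal_one]
        exact (ENNReal.toReal_lt_toReal ENNReal.one_ne_top hpt).2 hp
      rw [div_le_one (by linarith)]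
      exact h1.le
  have hclose : 1 - 1 / p₁.toReal < eta := by
    have hpt : p₁ ≠ ∞ := (hnear.trans_le le_top).ne
    have hp1 : 1 < p₁.toReal := by
      rw [← ENNReal.toReal_one]
      exact (ENNReal.toReal_lt_toReal ENNReal.one_ne_top hpt).2 hp₁
    have hp2 := (ENNReal.toReal_lt_toReal hpt (ENNReal.add_ne_top.2
        ⟨ENNReal.one_ne_top, ENNReal.ofReal_ne_top⟩)).2 hnear
    rw [ENNReal.toReal_add ENNReal.one_ne_top ENNReal.ofReal_ne_top, ENNReal.toReal_one,
      ENNReal.toReal_ofReal heta0.le] at hp2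
    rw [one_sub_div (by linarith), div_lt_iff₀ (by linarith)]
    nlinarith
  set u₁ := 1 / p₁.toReal with hu₁
  set u₂ := 1 / p₂.toReal with hu₂
  set u₃ := 1 / p₃.toReal with hu₃
  refine unbounded_of_graph_seed (Nat.mul_ne_zero (by omega) (by omega)) (B := 4)
    (X₀ := edgeX m M) (T₀ := edgeT m M) (fun i => ?_)
    (fun x => if x = 0 then 0 else if x = -1 then -1 else if x = 3 then 1 else 0) (fun i => ?_)
    hp₁ hp₂ hp₃ hr0 hH ?_
  · rcases hsE i with h | h <;> rcases hsS i with h' | h' <;> simp [edgeX, edgeT, h, h']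
  · rcases hsE i with h | h <;> rcases hsS i with h' | h' <;> simp [edgeX, edgeT, h, h']
  · rw [← hu₁, ← hu₂, ← hu₃, ← hexp]
    have b0 := base_pos (edgeX m M)
    have b1 := base_pos (projWord (edgeX m M) (edgeT m M) 1)
    have b2 := base_pos (projWord (edgeX m M) (edgeT m M) 2)
    have b3 := base_pos (projWord (edgeX m M) (edgeT m M) 3)
    rw [← Real.log_lt_log_iff (by positivity) (by positivity),
      Real.log_mul (by positivity) (by positivity), Real.log_mul (by positivity) (by positivity),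
      Real.log_mul (by positivity) (by positivity), Real.log_rpow b1, Real.log_rpow b2,
      Real.log_rpow b3, Real.log_rpow b0, hX, h1, h2, h3]
    have g1 : (1 - u₁) * hs < c * he / 4 := by
      refine (mul_lt_mul_of_pos_right hclose hhs0).trans_eq ?_
      rw [heta]
      field_simp
    have g2 : u₂ * (hb - hs) ≤ c / 2 * he := by
      calc u₂ * (hb - hs) ≤ u₂ * ((1 / (j : ℝ) + 2 / m) * he) :=
            mul_le_mul_of_nonneg_left hdelta (hu _ hp₂).1
        _ ≤ 1 * ((1 / (j : ℝ) + 2 / m) * he) := by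
            refine mul_le_mul_of_nonneg_right (hu _ hp₂).2 ?_
            positivity
        _ ≤ c / 2 * he := by
            rw [one_mul]
            exact mul_le_mul_of_nonneg_right (by linarith) hepos0.le
    have g3 : c * he ≤ (u₂ + u₃ - 1) * he := by
      refine mul_le_mul_of_nonneg_right ?_ hepos0.le
      rw [hc, ← hexp]
      linarith [(hu _ hp₁).2]
    have key : (u₁ + u₂ + u₃) * (he + hs) - ((he + hs) + (u₁ * he + u₂ * hb + u₃ * hs)) =
        (u₂ + u₃ - 1) * he - (1 - u₁) * hs - u₂ * (hb - hs) := by ring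
    have hce : 0 < c * he := mul_pos hc0 hepos0
    linarith

end Vale.Agent.P141
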