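import Vale.Agent.P141.Counting
import Mathlib.Data.ZMod.Basic
import Mathlib.Algebra.Field.ZMod
import Mathlib.Order.Interval.Finset.Defs
import Mathlib.Data.Int.Interval

open Finset

namespace Vale.Agent.P141

variable {α : Type*} [Fintype α] [DecidableEq α] {q : ℕ} [Fact q.Prime]

/-- Linear hash of an integer vector modulo `q`, read as an integer in `[0,q)`. -/
def hash (a : α → ZMod q) (v : α → ℤ) : ℤ := ((∑ k, a k * (v k : ZMod q)).val : ℤ)

theorem hash_nonneg (a : α → ZMod q) (v : α → ℤ) : 0 ≤ hash a v := Int.natCast_nonneg _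

theorem hash_lt (a : α → ZMod q) (v : α → ℤ) : hash a v < q := by
  have := NeZero.mk (Nat.Prime.ne_zero (Fact.out : q.Prime))
  unfold hash
  exact_mod_cast ZMod.val_lt _

theorem hash_cast (a : α → ZMod q) (v : α → ℤ) :
    ((hash a v : ℤ) : ZMod q) = ∑ k, a k * (v k : ZMod q) := by
  have := NeZero.mk (Nat.Prime.ne_zero (Fact.out : q.Prime))
  simp [hash]

theorem card_collision {B : ℕ} (hB : 2 * B < q) {v v' : α → ℤ}
    (hv : ∀ k, |v k| ≤ B) (hv' : ∀ k, |v' k| ≤ B) (hne : v ≠ v') :
    (univ.filter fun a : α → ZMod q => hash a v = hash a v').card * q =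
      Fintype.card (α → ZMod q) := by
  obtain ⟨k₀, hk₀⟩ := Function.ne_iff.1 hne
  set d : ZMod q := (v k₀ : ZMod q) - (v' k₀ : ZMod q) with hd
  have hd0 : d ≠ 0 := by
    intro h
    rw [hd, ← Int.cast_sub, ZMod.intCast_zmod_eq_zero_iff_dvd] at h
    have h2 := Int.eq_zero_of_abs_lt_dvd h
      (lt_of_le_of_lt (abs_sub _ _) (by have := hv k₀; have := hv' k₀; omega))
    exact hk₀ (sub_eq_zero.1 h2)
  let f : (α → ZMod q) → ZMod q := fun a =>
    ∑ k, a k * (v k : ZMod q) - ∑ k, a k * (v' k : ZMod q)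
  have hfil : (univ.filter fun a : α → ZMod q => hash a v = hash a v') =
      univ.filter fun a => f a = 0 := by
    ext a
    have := NeZero.mk (Nat.Prime.ne_zero (Fact.out : q.Prime))
    simp only [mem_filter, mem_univ, true_and, f, sub_eq_zero, hash, Nat.cast_inj]
    exact (ZMod.val_injective q).eq_iff
  have hshift : ∀ c : ZMod q, (univ.filter fun a => f a = c).card =
      (univ.filter fun a => f a = 0).card := by
    intro c
    let s : α → ZMod q := Pi.single k₀ (c / d)
    have hfs : f s = c := by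
      simp only [f, s, Pi.single_apply, ite_mul, zero_mul, Finset.sum_ite_eq', mem_univ, if_true]
      rw [← mul_sub, ← hd, div_mul_cancel₀ _ hd0]
    have hadd : ∀ a b, f (a + b) = f a + f b := fun a b => by
      simp only [f, Pi.add_apply, add_mul, Finset.sum_add_distrib]; ring
    refine Finset.card_bij' (fun a _ => a - s) (fun a _ => a + s) ?_ ?_ ?_ ?_
    · intro a ha
      simp only [mem_filter, mem_univ, true_and] at ha ⊢
      have := hadd (a - s) s
      rw [sub_add_cancel, hfs, ha] at this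
      exact add_eq_right.1 this.symm
    · intro a ha
      simp only [mem_filter, mem_univ, true_and] at ha ⊢
      rw [hadd, hfs, ha, zero_add]
    · intro a _; simp
    · intro a _; simp
  have hsum := Finset.card_eq_sum_card_fiberwise (f := f) (s := (univ : Finset (α → ZMod q)))
    (t := univ) (fun a _ => mem_univ _)
  rw [Finset.sum_const_nat (fun c _ => hshift c), Finset.card_univ, Finset.card_univ,
    ZMod.card] at hsum
  rw [hfil, hsum, mul_comm]

variable (X T : α → ℤ)

/-- The pair word. -/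
def pairWord : α → ℤ × ℤ := fun k => (X k, T k)

/-- The word `x - j t`. -/
def projWord (j : ℤ) : α → ℤ := fun k => X k - j * T k

theorem fst_pairWord : (Prod.fst : ℤ × ℤ → ℤ) ∘ pairWord X T = X := rfl

theorem projWord_eq (j : ℤ) :
    (fun p : ℤ × ℤ => p.1 - j * p.2) ∘ pairWord X T = projWord X T j := rfl

/-- The discrete configuration produced by hashing. -/
theorem exists_configuration {B : ℕ} (hXB : ∀ k, |X k| ≤ B) (hTB : ∀ k, |T k| ≤ B)
    (hB : 2 * B < q) (hMx : 4 * (arrangements X).card ≤ q)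
    (hF : 4 * (arrangements (pairWord X T)).card ≤ q * (arrangements X).card) :
    ∃ (Xs : Finset ℤ) (Ts : ℤ → Finset ℤ) (A : ℤ → Finset ℤ),
      (arrangements X).card ≤ 4 * Xs.card ∧
      (∀ x ∈ Xs, 0 ≤ x ∧ x < q ∧
        (arrangements (pairWord X T)).card ≤ 4 * (arrangements X).card * (Ts x).card ∧
        ∀ t ∈ Ts x, 0 ≤ t ∧ t < q) ∧
      (∀ x ∈ Xs, ∀ t ∈ Ts x, ∀ j ∈ ({1, 2, 3} : Finset ℤ), x - j * t ∈ A j) ∧
      ∀ j, (A j).card ≤ 5 * (arrangements (projWord X T j)).card ∧
        A j ⊆ Icc (-3 * (q : ℤ)) q := by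
  classical
  set Ox := arrangements X
  set O2 := arrangements (pairWord X T) with hO2
  set fib : (α → ℤ) → Finset (α → ℤ × ℤ) := fun x => O2.filter fun v => Prod.fst ∘ v = x
  have hq : 0 < q := (Fact.out : q.Prime).pos
  have hOx : ∀ v ∈ O2, Prod.fst ∘ v ∈ Ox := fun v hv => by
    have := mem_image_of_mem (fun w : α → ℤ × ℤ => Prod.fst ∘ w) hv
    rwa [hO2, image_arrangements, fst_pairWord] at this
  have hfib : ∀ x ∈ Ox, (fib x).card * Ox.card = O2.card := fun x hx =>
    card_fiber_mul (pairWord X T) Prod.fst hx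
  have hbd : ∀ v ∈ O2, (∀ k, |(Prod.fst ∘ v) k| ≤ B) ∧ ∀ k, |(Prod.snd ∘ v) k| ≤ B := by
    intro v hv
    obtain ⟨σ, rfl⟩ := mem_arrangements.1 hv
    exact ⟨fun k => hXB (σ k), fun k => hTB (σ k)⟩
  have hOxpos : 0 < Ox.card := Finset.card_pos.2 ⟨X, mem_arrangements.2 ⟨1, rfl⟩⟩
  set bad : (α → ℤ × ℤ) → (α → ZMod q) → Prop := fun v a =>
    (∃ x ∈ Ox, x ≠ Prod.fst ∘ v ∧ hash a x = hash a (Prod.fst ∘ v)) ∨
      ∃ w ∈ fib (Prod.fst ∘ v), w ≠ v ∧ hash a (Prod.snd ∘ w) = hash a (Prod.snd ∘ v) with hbad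
  set Q := Fintype.card (α → ZMod q) with hQ
  have hQpos : 0 < Q := Fintype.card_pos
  have hbadv : ∀ v ∈ O2, 2 * (univ.filter (bad v)).card ≤ Q := by
    intro v hv
    have hsub : univ.filter (bad v) ⊆
        ((Ox.erase (Prod.fst ∘ v)).biUnion fun x =>
          univ.filter fun a : α → ZMod q => hash a x = hash a (Prod.fst ∘ v)) ∪
        (((fib (Prod.fst ∘ v)).erase v).biUnion fun w =>
          univ.filter fun a : α → ZMod q => hash a (Prod.snd ∘ w) = hash a (Prod.snd ∘ v)) := by
      intro a ha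
      simp only [mem_filter, mem_univ, true_and, hbad] at ha
      simp only [mem_union, mem_biUnion, mem_erase, mem_filter, mem_univ, true_and]
      rcases ha with ⟨x, h1, h2, h3⟩ | ⟨w, h1, h2, h3⟩
      · exact Or.inl ⟨x, ⟨h2, h1⟩, h3⟩
      · exact Or.inr ⟨w, ⟨h2, h1⟩, h3⟩
    have h1 : ∀ x ∈ Ox.erase (Prod.fst ∘ v),
        (univ.filter fun a : α → ZMod q => hash a x = hash a (Prod.fst ∘ v)).card * q = Q := by
      intro x hx
      rw [mem_erase] at hx
      obtain ⟨σ, rfl⟩ := mem_arrangements.1 hx.2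
      exact card_collision hB (fun k => hXB (σ k)) (hbd v hv).1 hx.1
    have h2 : ∀ w ∈ (fib (Prod.fst ∘ v)).erase v,
        (univ.filter fun a : α → ZMod q =>
          hash a (Prod.snd ∘ w) = hash a (Prod.snd ∘ v)).card * q = Q := by
      intro w hw
      simp only [mem_erase, fib, mem_filter] at hw
      refine card_collision hB (hbd w hw.2.1).2 (hbd v hv).2 fun h => hw.1 ?_
      funext k
      exact Prod.ext (congrFun hw.2.2 k) (congrFun h k)
    have hc := Nat.mul_le_mul_right q ((Finset.card_le_card hsub).trans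
      ((Finset.card_union_le _ _).trans (Nat.add_le_add Finset.card_biUnion_le
        Finset.card_biUnion_le)))
    rw [add_mul, Finset.sum_mul, Finset.sum_mul, Finset.sum_congr rfl h1,
      Finset.sum_congr rfl h2, Finset.sum_const, Finset.sum_const, smul_eq_mul,
      smul_eq_mul] at hc
    have hf4 : 4 * (fib (Prod.fst ∘ v)).card ≤ q := by
      have := hfib _ (hOx v hv)
      refine Nat.le_of_mul_le_mul_right ?_ hOxpos
      rw [mul_assoc, this]; exact hF
    have ha1 : 4 * (Ox.erase (Prod.fst ∘ v)).card ≤ q :=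
      (Nat.mul_le_mul_left 4 Finset.card_erase_le).trans hMx
    have ha2 : 4 * ((fib (Prod.fst ∘ v)).erase v).card ≤ q :=
      (Nat.mul_le_mul_left 4 Finset.card_erase_le).trans hf4
    refine Nat.le_of_mul_le_mul_right ?_ hq
    nlinarith
  have hex : ∃ a, O2.card ≤ 2 * (O2.filter fun v => ¬ bad v a).card := by
    have hdc : ∑ a : α → ZMod q, (O2.filter fun v => ¬ bad v a).card =
        ∑ v ∈ O2, (univ.filter fun a => ¬ bad v a).card := by
      simp only [Finset.card_filter]
      exact Finset.sum_comm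
    have hone : ∀ v ∈ O2, Q ≤ 2 * (univ.filter fun a => ¬ bad v a).card := by
      intro v hv
      have := hbadv v hv
      have h2 := Finset.card_filter_add_card_filter_not
        (s := (univ : Finset (α → ZMod q))) (bad v)
      rw [card_univ, ← hQ] at h2
      omega
    by_contra hcon
    push Not at hcon
    have h3 : ∑ a : α → ZMod q, 2 * (O2.filter fun v => ¬ bad v a).card <
        ∑ _a : α → ZMod q, O2.card :=
      Finset.sum_lt_sum_of_nonempty univ_nonempty fun a _ => hcon a
    rw [← Finset.mul_sum, hdc, Finset.mul_sum, Finset.sum_const, card_univ, ← hQ,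
      smul_eq_mul] at h3
    have h4 : ∑ v ∈ O2, Q ≤ ∑ v ∈ O2, 2 * (univ.filter fun a => ¬ bad v a).card :=
      Finset.sum_le_sum hone
    rw [Finset.sum_const, smul_eq_mul, mul_comm] at h4
    omega
  obtain ⟨a, ha⟩ := hex
  set good := O2.filter fun v => ¬ bad v a with hgood
  set pr : (α → ℤ × ℤ) → ℤ × ℤ := fun v => (hash a (Prod.fst ∘ v), hash a (Prod.snd ∘ v))
  have hinj : Set.InjOn pr good := by
    intro v hv w hw h
    simp only [hgood, coe_filter, Set.mem_ofPred_eq, hbad, not_or, not_exists, not_and] at hv hw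
    simp only [pr, Prod.mk.injEq] at h
    by_contra hne
    by_cases hx : Prod.fst ∘ w = Prod.fst ∘ v
    · exact hv.2.2 w (mem_filter.2 ⟨hw.1, hx⟩) (Ne.symm hne) h.2.symm
    · exact hv.2.1 _ (hOx w hw.1) hx h.1.symm
  set S := good.image pr with hS
  have hScard : S.card = good.card := Finset.card_image_of_injOn hinj
  set Ts : ℤ → Finset ℤ := fun x => (S.filter fun p => p.1 = x).image Prod.snd with hTs
  have hTcard : ∀ x, (Ts x).card = (S.filter fun p => p.1 = x).card := fun x => by
    refine Finset.card_image_of_injOn fun p hp p' hp' h => Prod.ext ?_ h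
    simp only [coe_filter, Set.mem_ofPred_eq] at hp hp'
    rw [hp.2, hp'.2]
  have hfibS : ∀ x ∈ S.image Prod.fst, (S.filter fun p => p.1 = x).card * Ox.card ≤ O2.card := by
    intro x hx
    simp only [hS, mem_image, exists_exists_and_eq_and] at hx
    obtain ⟨v, hv, rfl⟩ := hx
    have hv' := (mem_filter.1 hv)
    have hsub : (S.filter fun p => p.1 = (pr v).1) ⊆ (fib (Prod.fst ∘ v)).image pr := by
      intro p hp
      simp only [hS, mem_filter, mem_image] at hp
      obtain ⟨⟨w, hw, rfl⟩, hp⟩ := hp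
      refine mem_image_of_mem _ (mem_filter.2 ⟨(mem_filter.1 hw).1, ?_⟩)
      by_contra hne
      have hb := hv'.2
      simp only [hbad, not_or, not_exists, not_and] at hb
      exact hb.1 _ (hOx w (mem_filter.1 hw).1) hne hp
    rw [← hfib _ (hOx v hv'.1)]
    exact Nat.mul_le_mul_right _ ((Finset.card_le_card hsub).trans Finset.card_image_le)
  set Xs := (S.image Prod.fst).filter fun x =>
    O2.card ≤ 4 * Ox.card * (Ts x).card with hXs
  set A : ℤ → Finset ℤ := fun j =>
    ((arrangements (projWord X T j)) ×ˢ Icc (-3 : ℤ) 1).image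
      (fun p => hash a p.1 + p.2 * q) ∩ Icc (-3 * (q : ℤ)) q with hA
  have hSbd : ∀ p ∈ S, 0 ≤ p.1 ∧ p.1 < q ∧ 0 ≤ p.2 ∧ p.2 < q := by
    intro p hp
    obtain ⟨v, -, rfl⟩ := Finset.mem_image.1 hp
    exact ⟨hash_nonneg _ _, hash_lt _ _, hash_nonneg _ _, hash_lt _ _⟩
  refine ⟨Xs, Ts, A, ?_, ?_, ?_, ?_⟩
  · have hXimg : (S.image Prod.fst).card ≤ Ox.card := by
      have : S.image Prod.fst ⊆ Ox.image (hash a) := by
        intro x hx
        simp only [hS, mem_image, exists_exists_and_eq_and] at hx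
        obtain ⟨v, hv, rfl⟩ := hx
        exact mem_image.2 ⟨_, hOx v (mem_filter.1 hv).1, rfl⟩
      exact (Finset.card_le_card this).trans Finset.card_image_le
    have hsum : S.card * (4 * Ox.card) ≤
        Xs.card * (4 * O2.card) + (S.image Prod.fst).card * O2.card := by
      rw [Finset.card_eq_sum_card_image Prod.fst S, Finset.sum_mul,
        ← Finset.sum_filter_add_sum_filter_not (S.image Prod.fst)
          (fun x => O2.card ≤ 4 * Ox.card * (Ts x).card)]
      refine Nat.add_le_add ?_ ?_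
      · rw [← smul_eq_mul (a := Xs.card)]
        refine Finset.sum_le_card_nsmul _ _ _ fun x hx => ?_
        have := hfibS x (mem_filter.1 hx).1
        rw [mul_left_comm]
        exact Nat.mul_le_mul_left 4 this
      · refine le_trans (Finset.sum_le_card_nsmul _ _ O2.card fun x hx => ?_) ?_
        · have := (mem_filter.1 hx).2
          rw [hTcard] at this
          rw [mul_comm]
          omega
        · rw [smul_eq_mul]
          exact Nat.mul_le_mul_right _ (Finset.card_filter_le _ _)
    have hO2pos : 0 < O2.card := Finset.card_pos.2 ⟨pairWord X T, mem_arrangements.2 ⟨1, rfl⟩⟩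
    refine Nat.le_of_mul_le_mul_right ?_ hO2pos
    calc Ox.card * O2.card ≤ Ox.card * (2 * good.card) := Nat.mul_le_mul_left _ ha
      _ ≤ 4 * Xs.card * O2.card := by nlinarith
  · intro x hx
    simp only [hXs, mem_filter, mem_image] at hx
    obtain ⟨⟨p, hp, rfl⟩, hx⟩ := hx
    refine ⟨(hSbd p hp).1, (hSbd p hp).2.1, hx, fun t ht => ?_⟩
    simp only [hTs, mem_image, mem_filter] at ht
    obtain ⟨p', ⟨hp', -⟩, rfl⟩ := ht
    exact ⟨(hSbd p' hp').2.2.1, (hSbd p' hp').2.2.2⟩
  · intro x _ t ht j hj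
    simp only [hTs, mem_image, mem_filter] at ht
    obtain ⟨p, ⟨hp, rfl⟩, rfl⟩ := ht
    obtain ⟨v, hv, rfl⟩ := Finset.mem_image.1 hp
    obtain ⟨h0, h1, h2, h3⟩ := hSbd _ hp
    have hu : (fun p : ℤ × ℤ => p.1 - j * p.2) ∘ v ∈ arrangements (projWord X T j) := by
      rw [← projWord_eq, ← image_arrangements]
      exact mem_image_of_mem _ (mem_filter.1 hv).1
    set u := (fun p : ℤ × ℤ => p.1 - j * p.2) ∘ v with hudef
    have hj' : 1 ≤ j ∧ j ≤ 3 := by
      simp only [mem_insert, mem_singleton] at hj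
      omega
    set z : ℤ := hash a (Prod.fst ∘ v) - j * hash a (Prod.snd ∘ v) with hz
    have hdvd : (q : ℤ) ∣ z - hash a u := by
      rw [← ZMod.intCast_zmod_eq_zero_iff_dvd, hz, hudef]
      push_cast
      simp only [hash_cast, Function.comp]
      push_cast
      simp only [mul_sub, Finset.sum_sub_distrib, Finset.mul_sum]
      simp only [← Finset.sum_add_distrib, ← Finset.sum_sub_distrib]
      exact Finset.sum_eq_zero fun k _ => by ring
    obtain ⟨i, hi⟩ := hdvd
    have hi' : z = hash a u + i * q := by linarith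
    have hz1 : -3 * (q : ℤ) ≤ z ∧ z ≤ q := by
      simp only [pr] at h0 h1 h2 h3
      constructor
      · rw [hz]; nlinarith
      · rw [hz]; nlinarith
    have hu0 := hash_nonneg a u
    have hu1 := hash_lt a u
    have hq' : (0 : ℤ) < q := by exact_mod_cast hq
    have hi1 : -3 ≤ i ∧ i ≤ 1 := by constructor <;> nlinarith
    simp only [hA, mem_inter, mem_image, mem_product, mem_Icc, pr]
    exact ⟨⟨(u, i), ⟨hu, hi1⟩, hi'.symm⟩, hz1⟩
  · intro j
    refine ⟨(Finset.card_le_card inter_subset_left).trans (Finset.card_image_le.trans ?_),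
      inter_subset_right⟩
    rw [card_product, mul_comm]
    simp

end Vale.Agent.P141
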