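import Vale.Agent.P141.Hash
import Vale.Agent.P141.Analysis
import Mathlib.Analysis.SpecificLimits.Normed
import Mathlib.NumberTheory.Bertrand

open MeasureTheory Filter Topology Set
open scoped ENNReal NNReal

namespace Vale.Agent.P141

variable {N : ℕ}

/-- The `m`-fold repetition of a word on `Fin N`. -/
def rep {β : Type*} (m : ℕ) (g : Fin N → β) : Fin m × Fin N → β := fun p => g p.2

/-- Base of the exponential growth of the arrangement class of a seed word. -/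
noncomputable def base {β : Type*} [DecidableEq β] (g : Fin N → β) : ℝ :=
  (N : ℝ) ^ N / selfPow g

theorem base_pos {β : Type*} [DecidableEq β] (g : Fin N → β) : 0 < base g :=
  div_pos (by exact_mod_cast Nat.pow_self_pos) (by exact_mod_cast selfPow_pos g)

/-- The polynomial error factor. -/
noncomputable def err (N m : ℕ) : ℝ := (Real.exp 1 * (m * N)) ^ N

theorem one_le_err {m : ℕ} (hm : m ≠ 0) (hN : N ≠ 0) : 1 ≤ err N m := by
  apply one_le_pow₀
  have h1 : (1 : ℝ) ≤ m := by exact_mod_cast Nat.pos_of_ne_zero hm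
  have h2 : (1 : ℝ) ≤ N := by exact_mod_cast Nat.pos_of_ne_zero hN
  nlinarith [Real.one_le_exp (show (0 : ℝ) ≤ 1 by norm_num), mul_le_mul h1 h2 zero_le_one
    (by linarith : (0 : ℝ) ≤ m)]

theorem rep_bounds {β : Type*} [DecidableEq β] (g : Fin N → β) {m : ℕ} (hm : m ≠ 0) (hN : N ≠ 0) :
    ((arrangements (rep m g)).card : ℝ) ≤ err N m * base g ^ m ∧
      base g ^ m / err N m ≤ ((arrangements (rep m g)).card : ℝ) := by
  obtain ⟨h1, h2⟩ := arrangements_rep_bounds m g hm hN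
  refine ⟨h1.trans ?_, h2⟩
  refine mul_le_mul_of_nonneg_right ?_ (pow_nonneg (base_pos g).le _)
  have h1 : (1 : ℝ) ≤ m := by exact_mod_cast Nat.pos_of_ne_zero hm
  have h2 : (1 : ℝ) ≤ N := by exact_mod_cast Nat.pos_of_ne_zero hN
  refine le_self_pow₀ ?_ hN
  nlinarith [Real.one_le_exp (show (0 : ℝ) ≤ 1 by norm_num), mul_le_mul h1 h2 zero_le_one
    (by linarith : (0 : ℝ) ≤ m)]

/-- The threshold exponent. -/
noncomputable def r₀ : ℝ := 47 / 100

theorem growth_first {X₀ T₀ : Fin N → ℤ} {j : ℤ}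
    (h : selfPow X₀ < selfPow (projWord X₀ T₀ j)) :
    1 < base X₀ / base (projWord X₀ T₀ j) := by
  rw [one_lt_div (base_pos _)]
  exact div_lt_div_of_pos_left (by exact_mod_cast Nat.pow_self_pos)
    (by exact_mod_cast selfPow_pos _) (by exact_mod_cast h)

theorem growth_second {X₀ T₀ : Fin N → ℤ} {j : ℤ}
    (hs : (N ^ N * selfPow (pairWord X₀ T₀)) ^ 47 * selfPow X₀ ^ 6 <
      selfPow (projWord X₀ T₀ j) ^ 100) :
    1 < base X₀ / base (projWord X₀ T₀ j) *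
      (base (pairWord X₀ T₀) / base X₀ ^ 2) ^ r₀ := by
  have hp := selfPow_pos (projWord X₀ T₀ j)
  have hx := selfPow_pos X₀
  have h2 := selfPow_pos (pairWord X₀ T₀)
  have hb : ∀ a : ℝ, 0 < a → a ^ r₀ = (a ^ (1 / 100 : ℝ)) ^ 47 := fun a ha => by
    rw [← Real.rpow_natCast (a ^ (1 / 100 : ℝ)), ← Real.rpow_mul ha.le]
    norm_num [r₀]
  simp only [base] at *
  set Gx : ℝ := (selfPow X₀ : ℝ) with hGx
  set G2 : ℝ := (selfPow (pairWord X₀ T₀) : ℝ) with hG2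
  set Gj : ℝ := (selfPow (projWord X₀ T₀ j) : ℝ) with hGj
  have hGxp : 0 < Gx := Nat.cast_pos.2 hx
  have hG2p : 0 < G2 := Nat.cast_pos.2 h2
  have hGjp : 0 < Gj := Nat.cast_pos.2 hp
  have hs' : ((N : ℝ) ^ N * G2) ^ 47 * Gx ^ 6 < Gj ^ 100 := by
    have := (Nat.cast_lt (α := ℝ)).2 hs
    simpa only [Nat.cast_mul, Nat.cast_pow, hGx, hG2, hGj] using this
  have hWp : (0 : ℝ) < (N : ℝ) ^ N := by exact_mod_cast Nat.pow_self_pos
  generalize ((N : ℝ) ^ N : ℝ) = W at *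
  have e1 : W / Gx / (W / Gj) = Gj / Gx := by field_simp
  have e2 : W / G2 / (W / Gx) ^ 2 = Gx ^ 2 / (W * G2) := by field_simp
  rw [e1, e2, hb _ (by positivity)]
  set b : ℝ := (Gx ^ 2 / (W * G2)) ^ (1 / 100 : ℝ) with hbdef
  have hb100 : b ^ 100 = Gx ^ 2 / (W * G2) := by
    rw [hbdef, ← Real.rpow_natCast _ 100, ← Real.rpow_mul (by positivity)]
    norm_num
  refine (one_lt_pow_iff_of_nonneg (by positivity) (n := 100) (by norm_num)).1 ?_
  rw [mul_pow, ← pow_mul, mul_comm 47 100, pow_mul, hb100, div_pow, div_pow, ← pow_mul,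
    div_mul_div_comm, one_lt_div (by positivity),
    show Gj ^ 100 * Gx ^ (2 * 47) = Gx ^ 94 * Gj ^ 100 by ring,
    show Gx ^ 100 * (W * G2) ^ 47 = Gx ^ 94 * ((W * G2) ^ 47 * Gx ^ 6) by ring]
  exact mul_lt_mul_of_pos_left hs' (by positivity)

/-- Exponential growth beats the polynomial error. -/
theorem eventually_growth (hN : N ≠ 0) {l : ℝ} (hl : 1 < l) (D : ℝ) :
    ∀ᶠ m : ℕ in atTop, D < l ^ m / err N m ^ 5 := by
  have h0 := tendsto_pow_const_div_const_pow_of_one_lt (N * 5) hl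
  set c : ℝ := (Real.exp 1 * N) ^ (N * 5) with hc
  have hcp : 0 < c := by positivity
  have h1 : Tendsto (fun m : ℕ => c * ((m : ℝ) ^ (N * 5) / l ^ m)) atTop (𝓝[>] 0) := by
    refine tendsto_nhdsWithin_iff.2 ⟨by simpa using h0.const_mul c, ?_⟩
    filter_upwards [eventually_ne_atTop 0] with m hm
    have : (0 : ℝ) < m := by exact_mod_cast Nat.pos_of_ne_zero hm
    exact mul_pos hcp (div_pos (by positivity) (by positivity))
  filter_upwards [h1.inv_tendsto_nhdsGT_zero.eventually_gt_atTop D] with m hm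
  refine hm.trans_le (le_of_eq ?_)
  have he : err N m ^ 5 = c * (m : ℝ) ^ (N * 5) := by
    rw [hc, err, ← pow_mul, ← mul_pow]
    congr 1
    ring
  simp only [Pi.inv_apply, he]
  rw [← mul_div_assoc, inv_div]

/-- The two growth conditions at scale `m`. -/
theorem exists_scale (hN : N ≠ 0) {X₀ T₀ : Fin N → ℤ}
    (hs₁ : ∀ j ∈ ({1, 2, 3} : Finset ℤ), selfPow X₀ < selfPow (projWord X₀ T₀ j))
    (hs₂ : ∀ j ∈ ({1, 2, 3} : Finset ℤ), (N ^ N * selfPow (pairWord X₀ T₀)) ^ 47 * selfPow X₀ ^ 6 <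
      selfPow (projWord X₀ T₀ j) ^ 100) (D : ℝ) :
    ∃ m : ℕ, m ≠ 0 ∧ ∀ j ∈ ({1, 2, 3} : Finset ℤ),
      D < (base X₀ / base (projWord X₀ T₀ j)) ^ m / err N m ^ 5 ∧
      D < (base X₀ / base (projWord X₀ T₀ j) *
        (base (pairWord X₀ T₀) / base X₀ ^ 2) ^ r₀) ^ m / err N m ^ 5 := by
  have h : ∀ᶠ m : ℕ in atTop, ∀ j ∈ ({1, 2, 3} : Finset ℤ),
      D < (base X₀ / base (projWord X₀ T₀ j)) ^ m / err N m ^ 5 ∧
      D < (base X₀ / base (projWord X₀ T₀ j) *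
        (base (pairWord X₀ T₀) / base X₀ ^ 2) ^ r₀) ^ m / err N m ^ 5 :=
    ({1, 2, 3} : Finset ℤ).eventually_all.2 fun j hj =>
      (eventually_growth hN (growth_first (hs₁ j hj)) D).and
        (eventually_growth hN (growth_second (hs₂ j hj)) D)
  obtain ⟨m, hm, hm0⟩ := (h.and (eventually_ne_atTop 0)).exists
  exact ⟨m, hm0, hm⟩

/-- Arithmetic of the scale `1 / q`. -/
theorem scale_bound (a b q : ℕ) (hapos : 0 < a) (hqp : 0 < q)
    (hq2 : q ≤ 2 * (4 * a + 4 * (b / a + 1) + 100)) :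
    min ((b : ℝ) / (a : ℝ) ^ 2) 1 / 200000 ≤ (b : ℝ) / (4 * a) * (100 * q : ℝ)⁻¹ / 2 := by
  have haR : (0 : ℝ) < a := by exact_mod_cast hapos
  have hqR : (0 : ℝ) < q := by exact_mod_cast hqp
  set s : ℝ := min ((b : ℝ) / (a : ℝ) ^ 2) 1 with hs
  have hs0 : 0 ≤ s := le_min (by positivity) zero_le_one
  have hq2' : (q : ℝ) ≤ 2 * (4 * a + 4 * ((b / a : ℕ) + 1) + 100) := by exact_mod_cast hq2
  have hfl : ((b / a : ℕ) : ℝ) ≤ (b : ℝ) / a := Nat.cast_div_le
  have hs1 : s * (a : ℝ) ^ 2 ≤ b := (le_div_iff₀ (by positivity)).1 (min_le_left _ _)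
  have hs2 : s ≤ 1 := min_le_right _ _
  have ha1 : (1 : ℝ) ≤ a := by exact_mod_cast hapos
  have hba : (b : ℝ) / a * a = b := div_mul_cancel₀ _ haR.ne'
  rw [div_le_iff₀ (by norm_num), show (b : ℝ) / (4 * a) * (100 * q : ℝ)⁻¹ / 2 * 200000
    = 250 * (b : ℝ) / (a * q) by field_simp; ring, le_div_iff₀ (by positivity)]
  have e1 : s * (a * q) ≤ s * (a * (2 * (4 * a + 4 * ((b : ℝ) / a + 1) + 100))) := by
    have : (q : ℝ) ≤ 2 * (4 * a + 4 * ((b : ℝ) / a + 1) + 100) := by linarith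
    gcongr
  have e2 : s * (a * (2 * (4 * a + 4 * ((b : ℝ) / a + 1) + 100))) =
      8 * (s * (a : ℝ) ^ 2) + 8 * (s * b) + 208 * (s * a) := by
    linear_combination 8 * s * hba
  have e3 : s * b ≤ b := by nlinarith
  have e4 : s * a ≤ b ∨ b < s * a := le_or_gt _ _
  have e5 : s * a ≤ s * (a : ℝ) ^ 2 := by
    apply mul_le_mul_of_nonneg_left _ hs0
    nlinarith
  nlinarith

/-- No constant bounds the trilinear Hilbert transform at a Hölder tuple with `r ≤ 47/100`. -/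
theorem unbounded_of_seed (hN : N ≠ 0) {X₀ T₀ : Fin N → ℤ}
    (hsb : ∀ i, |X₀ i| ≤ 30 ∧ |T₀ i| ≤ 30)
    (hs₁ : ∀ j ∈ ({1, 2, 3} : Finset ℤ), selfPow X₀ < selfPow (projWord X₀ T₀ j))
    (hs₂ : ∀ j ∈ ({1, 2, 3} : Finset ℤ), (N ^ N * selfPow (pairWord X₀ T₀)) ^ 47 * selfPow X₀ ^ 6 <
      selfPow (projWord X₀ T₀ j) ^ 100) (p₁ p₂ p₃ : ℝ≥0∞) (r : ℝ) (hp₁ : 1 < p₁) (hp₂ : 1 < p₂) (hp₃ : 1 < p₃)
    (hr0 : 0 < r) (hr : r ≤ 47 / 100)
    (hHolder : 1 / ENNReal.ofReal r = 1 / p₁ + 1 / p₂ + 1 / p₃) :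
    ¬ ∃ C : ℝ≥0, ∀ f₁ f₂ f₃ : SchwartzMap ℝ ℂ,
      eLpNorm (THT f₁ f₂ f₃) (ENNReal.ofReal r) volume ≤
        C * eLpNorm f₁ p₁ volume * eLpNorm f₂ p₂ volume * eLpNorm f₃ p₃ volume := by
  rintro ⟨C, hC⟩
  have hexp : 1 / p₁.toReal + 1 / p₂.toReal + 1 / p₃.toReal = 1 / r := by
    have := congrArg ENNReal.toReal hHolder
    have hfin : ∀ p : ℝ≥0∞, 1 < p → 1 / p ≠ ∞ := fun p hp => by
      simp [one_div, ne_of_gt (zero_lt_one.trans hp)]
    rw [ENNReal.toReal_add (ENNReal.add_ne_top.2 ⟨hfin _ hp₁, hfin _ hp₂⟩) (hfin _ hp₃),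
      ENNReal.toReal_add (hfin _ hp₁) (hfin _ hp₂)] at this
    simpa [one_div, ENNReal.toReal_inv, hr0.le] using this.symm
  set D0 : ℝ := (C : ℝ) ^ r * 120 * (200000 : ℝ) ^ r with hD0
  obtain ⟨m, hm, hgrow⟩ := exists_scale hN hs₁ hs₂ D0
  set X := rep m X₀ with hXdef
  set T := rep m T₀ with hTdef
  set a := (arrangements X).card with ha
  set b := (arrangements (pairWord X T)).card with hb
  have hapos : 0 < a := Finset.card_pos.2 ⟨X, mem_arrangements.2 ⟨1, rfl⟩⟩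
  have hbpos : 0 < b := Finset.card_pos.2 ⟨pairWord X T, mem_arrangements.2 ⟨1, rfl⟩⟩
  obtain ⟨q, hqp, hq1, hq2⟩ :=
    Nat.exists_prime_lt_and_le_two_mul (4 * a + 4 * (b / a + 1) + 100) (by omega)
  have := Fact.mk hqp
  have hF : 4 * b ≤ q * a := by
    have h1 := Nat.div_add_mod b a
    have h2 := Nat.mod_lt b hapos
    have h3 : 4 * (b / a + 1) * a ≤ q * a := Nat.mul_le_mul_right a (by omega)
    nlinarith
  obtain ⟨Xs, Ts, A, hXs, hX, hA, hAc⟩ := exists_configuration X T (q := q) (B := 30)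
    (fun k => (hsb k.2).1) (fun k => (hsb k.2).2) (by omega) (by omega) hF
  obtain ⟨jm, hjm, hmax⟩ := Finset.exists_max_image ({1, 2, 3} : Finset ℤ)
    (fun j => (arrangements (projWord X T j)).card) ⟨1, by simp⟩
  set c := (arrangements (projWord X T jm)).card with hcdef
  have hcpos : 0 < c := Finset.card_pos.2 ⟨projWord X T jm, mem_arrangements.2 ⟨1, rfl⟩⟩
  have haR : (0 : ℝ) < a := by exact_mod_cast hapos
  have hbR : (0 : ℝ) < b := by exact_mod_cast hbpos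
  have hcR : (0 : ℝ) < c := by exact_mod_cast hcpos
  have hqR : (0 : ℝ) < q := by exact_mod_cast hqp.pos
  set L : ℝ := (b : ℝ) / (4 * a) with hL
  set h : ℝ := (100 * q : ℝ)⁻¹ with hh
  have hh0 : 0 < h := by positivity
  obtain ⟨f₁, f₂, f₃, hn₁, hn₂, hn₃, hlow⟩ := exists_test_functions hqp.pos Xs Ts A
    (L := L) (K := fun _ => 5 * (c : ℝ)) (by positivity)
    (fun x hx => ⟨(hX x hx).1, (hX x hx).2.1, by
      rw [hL, div_le_iff₀ (by positivity)]
      have : (b : ℝ) ≤ 4 * a * (Ts x).card := by exact_mod_cast (hX x hx).2.2.1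
      linarith, (hX x hx).2.2.2⟩) hA
    (fun j hj => ⟨by exact_mod_cast (hAc j).1.trans (Nat.mul_le_mul_left 5 (hmax j hj)),
      (hAc j).2⟩) hr0
  have hmain := hlow.trans ((hC f₁ f₂ f₃).trans
    (mul_le_mul' (mul_le_mul' (mul_le_mul_right (hn₁ p₁) _) (hn₂ p₂)) (hn₃ p₃)))
  rw [mul_assoc (C : ℝ≥0∞), mul_assoc (C : ℝ≥0∞), ← ENNReal.rpow_add_of_nonneg _ _
      (by positivity) (by positivity), ← ENNReal.rpow_add_of_nonneg _ _
      (by positivity) (by positivity), hexp] at hmain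
  have hreal : (L * h / 2) ^ r * (Xs.card * h) ≤ (C : ℝ) ^ r * (6 * h * (5 * c)) := by
    have h1 := ENNReal.rpow_le_rpow hmain hr0.le
    rw [← ENNReal.rpow_mul, one_div_mul_cancel hr0.ne', ENNReal.rpow_one,
      ENNReal.mul_rpow_of_nonneg _ _ hr0.le, ← ENNReal.rpow_mul, one_div_mul_cancel hr0.ne',
      ENNReal.rpow_one, ← ENNReal.ofReal_coe_nnreal,
      ENNReal.ofReal_rpow_of_nonneg C.coe_nonneg hr0.le, ← ENNReal.ofReal_mul (by positivity)] at h1
    exact (ENNReal.ofReal_le_ofReal_iff (by positivity)).1 h1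
  set s : ℝ := min ((b : ℝ) / (a : ℝ) ^ 2) 1 with hs
  have hs0 : 0 < s := lt_min (by positivity) one_pos
  have hLs : s / 200000 ≤ L * h / 2 := scale_bound a b q hapos hqp.pos hq2
  have hcount : (a : ℝ) / c * s ^ r₀ ≤ D0 := by
    have h1 : (s / 200000) ^ r * ((a : ℝ) / 4) ≤ (C : ℝ) ^ r * (30 * c) := by
      have hXs' : (a : ℝ) / 4 ≤ Xs.card := by
        have : (a : ℝ) ≤ 4 * Xs.card := by exact_mod_cast hXs
        linarith
      refine le_of_mul_le_mul_right ?_ hh0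
      calc (s / 200000) ^ r * ((a : ℝ) / 4) * h
          ≤ (L * h / 2) ^ r * Xs.card * h := by
            refine mul_le_mul_of_nonneg_right (mul_le_mul (Real.rpow_le_rpow (by positivity) hLs
              hr0.le) hXs' (by positivity) (by positivity)) hh0.le
        _ ≤ (C : ℝ) ^ r * (6 * h * (5 * c)) := by rw [mul_assoc]; exact hreal
        _ = (C : ℝ) ^ r * (30 * c) * h := by ring
    rw [Real.div_rpow hs0.le (by norm_num)] at h1
    have hE : (0 : ℝ) < (200000 : ℝ) ^ r := Real.rpow_pos_of_pos (by norm_num) r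
    have h2 : (a : ℝ) * s ^ r ≤ D0 * c := by
      have := mul_le_mul_of_nonneg_left h1 (show (0 : ℝ) ≤ 4 * (200000 : ℝ) ^ r by positivity)
      calc (a : ℝ) * s ^ r = 4 * (200000 : ℝ) ^ r * (s ^ r / (200000 : ℝ) ^ r * ((a : ℝ) / 4)) := by
            field_simp
        _ ≤ _ := this
        _ = D0 * c := by rw [hD0]; ring
    have h3 : s ^ r₀ ≤ s ^ r :=
      Real.rpow_le_rpow_of_exponent_ge hs0 (min_le_right _ _) hr
    rw [div_mul_eq_mul_div, div_le_iff₀ hcR]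
    exact (mul_le_mul_of_nonneg_left h3 haR.le).trans h2
  obtain ⟨hg1, hg2⟩ := hgrow jm hjm
  obtain ⟨hau, hal⟩ := rep_bounds X₀ hm hN
  obtain ⟨hbu, hbl⟩ := rep_bounds (pairWord X₀ T₀) hm hN
  obtain ⟨hcu, hcl⟩ := rep_bounds (projWord X₀ T₀ jm) hm hN
  change (a : ℝ) ≤ _ at hau
  change _ ≤ (a : ℝ) at hal
  change _ ≤ (b : ℝ) at hbl
  change (c : ℝ) ≤ _ at hcu
  set P := err N m with hP
  have hP1 : 1 ≤ P := one_le_err hm hN
  have hP0 : 0 < P := by linarith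
  set Bx := base X₀
  set B2 := base (pairWord X₀ T₀)
  set Bc := base (projWord X₀ T₀ jm)
  have hBx : 0 < Bx := base_pos _
  have hB2 : 0 < B2 := base_pos _
  have hBc : 0 < Bc := base_pos _
  have hac : (Bx / Bc) ^ m / P ^ 2 ≤ (a : ℝ) / c := by
    calc (Bx / Bc) ^ m / P ^ 2 = Bx ^ m / P / (P * Bc ^ m) := by rw [div_pow]; field_simp
      _ ≤ (a : ℝ) / c := div_le_div₀ haR.le hal hcR hcu
  have hba : (B2 / Bx ^ 2) ^ m / P ^ 3 ≤ (b : ℝ) / (a : ℝ) ^ 2 := by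
    calc (B2 / Bx ^ 2) ^ m / P ^ 3 = B2 ^ m / P / (P * Bx ^ m) ^ 2 := by
          rw [div_pow, ← pow_mul, mul_comm 2 m, pow_mul]; field_simp
      _ ≤ (b : ℝ) / (a : ℝ) ^ 2 :=
          div_le_div₀ hbR.le hbl (by positivity) (pow_le_pow_left₀ haR.le hau 2)
  have hlo : D0 < (a : ℝ) / c * s ^ r₀ := by
    rcases min_choice ((b : ℝ) / (a : ℝ) ^ 2) 1 with hcase | hcase
    · rw [hs, hcase]
      refine hg2.trans_le ?_
      have h1 : ((B2 / Bx ^ 2) ^ r₀) ^ m / P ^ 3 ≤ ((b : ℝ) / (a : ℝ) ^ 2) ^ r₀ := by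
        have hr₀ : (0 : ℝ) ≤ r₀ := by norm_num [r₀]
        refine le_trans ?_ (Real.rpow_le_rpow (by positivity) hba hr₀)
        rw [Real.div_rpow (pow_nonneg (by positivity) _) (by positivity),
          ← Real.rpow_pow_comm (by positivity)]
        refine div_le_div_of_nonneg_left (by positivity) (by positivity) ?_
        exact Real.rpow_le_self_of_one_le (one_le_pow₀ hP1) (by norm_num [r₀])
      calc (Bx / Bc * (B2 / Bx ^ 2) ^ r₀) ^ m / P ^ 5
          = (Bx / Bc) ^ m / P ^ 2 * (((B2 / Bx ^ 2) ^ r₀) ^ m / P ^ 3) := by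
            rw [mul_pow, div_mul_div_comm, ← pow_add]
        _ ≤ (a : ℝ) / c * ((b : ℝ) / (a : ℝ) ^ 2) ^ r₀ := by
            exact mul_le_mul hac h1 (div_nonneg (pow_nonneg (Real.rpow_nonneg (by positivity) _) _)
              (by positivity)) (div_nonneg haR.le hcR.le)
    · rw [hs, hcase, Real.one_rpow, mul_one]
      refine hg1.trans_le (le_trans ?_ hac)
      exact div_le_div_of_nonneg_left (by positivity) (by positivity)
        (pow_le_pow_right₀ hP1 (by norm_num))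
  linarith

end Vale.Agent.P141
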