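import Vale.Agent.P141.Edge
import Vale.Agent.P141.EdgeFirst

/-!
# All three edges together
-/

open MeasureTheory
open scoped ENNReal NNReal

namespace Vale.Agent.P141

/-- For every `r < 1/2` there is a neighbourhood of `1` such that the transform is unbounded
as soon as one of the three exponents lies in it. -/
theorem unbounded_near_one (r : ℝ) (hr0 : 0 < r) (hr : r < 1 / 2) :
    ∃ eta : ℝ, 0 < eta ∧ ∀ p₁ p₂ p₃ : ℝ≥0∞, 1 < p₁ → 1 < p₂ → 1 < p₃ →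
      1 / ENNReal.ofReal r = 1 / p₁ + 1 / p₂ + 1 / p₃ →
      min p₁ (min p₂ p₃) < 1 + ENNReal.ofReal eta →
      ¬ ∃ C : ℝ≥0, ∀ f₁ f₂ f₃ : SchwartzMap ℝ ℂ,
        eLpNorm (THT f₁ f₂ f₃) (ENNReal.ofReal r) volume ≤
          C * eLpNorm f₁ p₁ volume * eLpNorm f₂ p₂ volume * eLpNorm f₃ p₃ volume := by
  obtain ⟨d₁, hd₁, h₁⟩ := unbounded_near_first r hr0 hr
  obtain ⟨d₂, hd₂, h₂⟩ := unbounded_near_edges r hr0 hr
  refine ⟨min d₁ d₂, lt_min hd₁ hd₂, fun p₁ p₂ p₃ hp₁ hp₂ hp₃ hH hnear => ?_⟩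
  have hl : 1 + ENNReal.ofReal (min d₁ d₂) ≤ 1 + ENNReal.ofReal d₁ :=
    add_le_add le_rfl (ENNReal.ofReal_le_ofReal (min_le_left _ _))
  have hr' : 1 + ENNReal.ofReal (min d₁ d₂) ≤ 1 + ENNReal.ofReal d₂ :=
    add_le_add le_rfl (ENNReal.ofReal_le_ofReal (min_le_right _ _))
  rcases min_lt_iff.1 hnear with h | h
  · exact h₁ p₁ p₂ p₃ hp₁ hp₂ hp₃ hH (h.trans_le hl)
  · rcases min_lt_iff.1 h with h | h
    · exact h₂ p₁ p₂ p₃ hp₁ hp₂ hp₃ hH (Or.inl (h.trans_le hr'))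
    · exact h₂ p₁ p₂ p₃ hp₁ hp₂ hp₃ hH (Or.inr (h.trans_le hr'))

end Vale.Agent.P141
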