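import Vale.Agent.P141.Hash

open Finset

namespace Vale.Agent.P141

/-- The horizontal coordinates of the seed configuration (246 points with repetition). -/
def seedX (i : Fin 246) : ℤ :=
  ((List.replicate 1 1 ++ List.replicate 2 2 ++ List.replicate 4 3 ++ List.replicate 3 4 ++ List.replicate 2 4 ++
      List.replicate 7 5 ++ List.replicate 14 6 ++ List.replicate 1 7 ++ List.replicate 12 7 ++ List.replicate 9 8 ++
      List.replicate 3 8 ++ List.replicate 22 9 ++ List.replicate 25 10 ++ List.replicate 4 11 ++ List.replicate 13 11 ++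
      List.replicate 17 12 ++ List.replicate 2 12 ++ List.replicate 26 13 ++ List.replicate 20 14 ++ List.replicate 5 15 ++
      List.replicate 6 15 ++ List.replicate 14 16 ++ List.replicate 14 17 ++ List.replicate 8 18 ++ List.replicate 3 19 ++
      List.replicate 1 19 ++ List.replicate 5 20 ++ List.replicate 2 21 ++ List.replicate 1 22) : List ℤ).getD i 0

/-- The shifts of the seed configuration. -/
def seedT (i : Fin 246) : ℤ :=
  ((List.replicate 1 0 ++ List.replicate 2 1 ++ List.replicate 4 2 ++ List.replicate 3 1 ++ List.replicate 2 3 ++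
      List.replicate 7 2 ++ List.replicate 14 3 ++ List.replicate 1 2 ++ List.replicate 12 4 ++ List.replicate 9 3 ++
      List.replicate 3 5 ++ List.replicate 22 4 ++ List.replicate 25 5 ++ List.replicate 4 4 ++ List.replicate 13 6 ++
      List.replicate 17 5 ++ List.replicate 2 7 ++ List.replicate 26 6 ++ List.replicate 20 7 ++ List.replicate 5 6 ++
      List.replicate 6 8 ++ List.replicate 14 7 ++ List.replicate 14 8 ++ List.replicate 8 9 ++ List.replicate 3 8 ++
      List.replicate 1 10 ++ List.replicate 5 9 ++ List.replicate 2 10 ++ List.replicate 1 11) : List ℤ).getD i 0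

theorem seed_bounds : ∀ i, |seedX i| ≤ 30 ∧ |seedT i| ≤ 30 := by decide +kernel

theorem seed_first :
    ∀ j ∈ ({1, 2, 3} : Finset ℤ), selfPow seedX < selfPow (projWord seedX seedT j) := by
  decide +kernel

theorem seed_second :
    ∀ j ∈ ({1, 2, 3} : Finset ℤ),
      (246 ^ 246 * selfPow (pairWord seedX seedT)) ^ 47 * selfPow seedX ^ 6 <
        selfPow (projWord seedX seedT j) ^ 100 := by
  decide +kernel

end Vale.Agent.P141
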